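import Vale.Agent.P054.T2.H930.Germ3

set_option autoImplicit false

/-!
# P054 / T2, leaf [COORD]: the formal implicit function theorem of H930 with PRESCRIBED local
coordinates `∑ j, a l j (X j - p j)`, `l : τ`.
-/

open MvPolynomial

namespace Vale.Agent.P054.T2.H192

open H930

variable {σ : Type*} [Fintype σ] [DecidableEq σ] {k : Type*} [Field k]

/-- dual basis of a family of `card σ` independent covectors -/
theorem exists_dual_basis {ι : Type*} [Fintype ι] [DecidableEq ι] (M : ι → σ → k)
    (hM : LinearIndependent k M) (hcard : Fintype.card ι = Fintype.card σ) :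
    ∃ b : Module.Basis ι k (σ → k),
      (∀ v i, b.repr v i = ∑ j, M i j * v j) ∧
      ∀ m i, ∑ j, M i j * b m j = if i = m then 1 else 0 := by
  classical
  let L : (σ → k) →ₗ[k] (ι → k) := Matrix.toLin' (Matrix.of M)
  have hL : ∀ v i, L v i = ∑ j, M i j * v j := by
    intro v i
    simp [L, Matrix.toLin'_apply, Matrix.mulVec, dotProduct]
  have hsurj : Function.Surjective L := by
    have hrank : (Matrix.of M).rank = Fintype.card ι := by
      have h1 : LinearIndependent k (Matrix.of M).row := hM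
      exact h1.rank_matrix
    have h2 : LinearMap.range L = ⊤ := by
      apply Submodule.eq_top_of_finrank_eq
      rw [Module.finrank_fintype_fun_eq_card]
      rw [Matrix.rank] at hrank
      rw [← hrank]
      rfl
    exact LinearMap.range_eq_top.1 h2
  have hinj : Function.Injective L :=
    (LinearMap.injective_iff_surjective_of_finrank_eq_finrank (by
      rw [Module.finrank_fintype_fun_eq_card, Module.finrank_fintype_fun_eq_card, hcard])).2 hsurj
  let e : (σ → k) ≃ₗ[k] (ι → k) := LinearEquiv.ofBijective L ⟨hinj, hsurj⟩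
  let b : Module.Basis ι k (σ → k) := Module.Basis.ofEquivFun e
  have hb : ∀ v i, b.repr v i = ∑ j, M i j * v j := by
    intro v i
    rw [← hL v i]
    rfl
  refine ⟨b, hb, fun m i => ?_⟩
  rw [← hb, b.repr_self, Finsupp.single_apply]
  by_cases h : i = m
  · simp [h]
  · simp [h, Ne.symm h]

/-- the local coordinate `l` -/
noncomputable def zc {τ : Type*} (p : σ → k) (a : τ → σ → k) (l : τ) : MvPolynomial σ k :=
  ∑ j, C (a l j) * (X j - C (p j))

/-- **[COORD]** formal implicit function theorem with prescribed local coordinates -/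
theorem exists_germ_coord {τ : Type*} [Fintype τ] [DecidableEq τ] {c : ℕ} (p : σ → k)
    (f : Fin c → MvPolynomial σ k) (hf : ∀ i, eval p (f i) = 0) (a : τ → σ → k)
    (hind : LinearIndependent k
      (Sum.elim a (fun i => grad p (f i)) : τ ⊕ Fin c → σ → k))
    (hcard : Fintype.card τ + c = Fintype.card σ) :
    ∃ φ : MvPolynomial σ k →ₐ[k] MvPowerSeries τ k,
      (∀ A : MvPolynomial τ k, φ (aeval (zc p a) A) = (A : MvPowerSeries τ k)) ∧
      (∀ i, φ (f i) = 0) ∧
      (∀ n F, φ F ∈ (ordI n : Ideal (MvPowerSeries τ k)) ↔ F ∈ J p f n) ∧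
      (∀ n F, ∃ A : MvPolynomial τ k, (∀ d ∈ A.support, d.degree < n) ∧
        F - aeval (zc p a) A ∈ J p f n) := by
  classical
  obtain ⟨b, hrepr, hdual⟩ := exists_dual_basis
    (Sum.elim a (fun i => grad p (f i)) : τ ⊕ Fin c → σ → k) hind (by
      rw [Fintype.card_sum, Fintype.card_fin]; exact hcard)
  have hz : ∀ l, zf p b (Sum.inl l) = zc p a l := by
    intro l
    unfold zf zc
    refine Finset.sum_congr rfl fun j _ => ?_
    rw [hrepr, Sum.elim_inl]
    congr 2
    rw [Finset.sum_eq_single j (fun j' _ hj' => by rw [Pi.single_eq_of_ne hj', mul_zero])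
      (fun h => absurd (Finset.mem_univ j) h), Pi.single_eq_same, mul_one]
  have hb1 : ∀ l i, ∑ j, grad p (f i) j * b (Sum.inl l) j = 0 := by
    intro l i
    have := hdual (Sum.inl l) (Sum.inr i)
    simpa using this
  have hb2 : ∀ m i, ∑ j, grad p (f i) j * b (Sum.inr m) j = if i = m then 1 else 0 := by
    intro m i
    have := hdual (Sum.inr m) (Sum.inr i)
    simpa using this
  have hf2 : ∀ i, thC p b (f i) - X (Sum.inr i) ∈ (idealOfVars (τ ⊕ Fin c) k) ^ 2 := by
    intro i
    have h1 := taylor_mem p (f i)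
    rw [hf i, map_zero, sub_zero] at h1
    have h2 := Ideal.mem_map_of_mem (thC p b : MvPolynomial σ k →+* MvPolynomial (τ ⊕ Fin c) k) h1
    rw [Ideal.map_pow, thC_map_mx] at h2
    have h3 : (thC p b : MvPolynomial σ k →+* MvPolynomial (τ ⊕ Fin c) k)
        (f i - ∑ j, C (grad p (f i) j) * (X j - C (p j)))
        = thC p b (f i) - X (Sum.inr i) := by
      change toC p b (f i - ∑ j, C (grad p (f i) j) * (X j - C (p j)))
        = toC p b (f i) - X (Sum.inr i)
      rw [map_sub, map_sum]
      congr 1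
      have h4 : ∀ j, toC p b (C (grad p (f i) j) * (X j - C (p j)) : MvPolynomial σ k)
          = ∑ m, C (grad p (f i) j * b m j) * (X m : MvPolynomial (τ ⊕ Fin c) k) := by
        intro j
        rw [map_mul, toC_X_sub, MvPolynomial.algHom_C, Finset.mul_sum]
        refine Finset.sum_congr rfl (fun m _ => ?_)
        rw [map_mul, MvPolynomial.algebraMap_eq]
        ring
      rw [Finset.sum_congr rfl (fun j _ => h4 j), Finset.sum_comm]
      have h5 : ∀ m, ∑ j, C (grad p (f i) j * b m j) * (X m : MvPolynomial (τ ⊕ Fin c) k)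
          = if m = Sum.inr i then X m else 0 := by
        intro m
        rw [← Finset.sum_mul, ← map_sum]
        rcases m with l | m
        · rw [hb1 l i]; simp
        · rw [hb2 m i]
          by_cases h : i = m
          · subst h; simp
          · simp [h, Ne.symm h]
      rw [Finset.sum_congr rfl (fun m _ => h5 m), Finset.sum_ite_eq']
      simp
    rw [h3] at h2
    exact h2
  obtain ⟨φ', h1, h2, h3⟩ := norm_germ (fun i => thC p b (f i)) hf2
  have hJ : ∀ n, (J p f n).map (thC p b : MvPolynomial σ k →+* MvPolynomial (τ ⊕ Fin c) k)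
      = Ideal.span (Set.range (fun i => thC p b (f i))) ⊔ (idealOfVars (τ ⊕ Fin c) k) ^ n := by
    intro n
    unfold J
    rw [Ideal.map_sup, Ideal.map_pow, thC_map_mx, Ideal.map_span]
    congr 2
    ext x
    constructor
    · rintro ⟨_, ⟨i, rfl⟩, rfl⟩
      exact ⟨i, rfl⟩
    · rintro ⟨i, rfl⟩
      exact ⟨_, ⟨i, rfl⟩, rfl⟩
  have haev : ∀ A : MvPolynomial τ k,
      thC p b (aeval (zc p a) A) = rename Sum.inl A := by
    intro A
    have key : ((thC p b : MvPolynomial σ k →ₐ[k] MvPolynomial (τ ⊕ Fin c) k)).comp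
        (aeval (zc p a))
        = (rename Sum.inl : MvPolynomial τ k →ₐ[k] _) := by
      apply MvPolynomial.algHom_ext
      intro l
      rw [AlgHom.comp_apply, aeval_X, rename_X, ← hz l]
      change toC p b (zf p b (Sum.inl l)) = X (Sum.inl l)
      have h3 := DFunLike.congr_fun (toC_fromC p b) (X (Sum.inl l))
      rw [AlgHom.comp_apply, AlgHom.id_apply] at h3
      have h4 : fromC p b (X (Sum.inl l)) = zf p b (Sum.inl l) := by
        unfold fromC; rw [aeval_X]
      rw [h4] at h3
      exact h3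
    exact DFunLike.congr_fun key A
  refine ⟨φ'.comp (thC p b : MvPolynomial σ k →ₐ[k] MvPolynomial (τ ⊕ Fin c) k), ?_, ?_, ?_, ?_⟩
  · intro A
    rw [AlgHom.comp_apply]
    have := haev A
    change φ' (thC p b (aeval (zc p a) A)) = _
    rw [this, h1]
  · intro i
    exact h2 i
  · intro n F
    rw [AlgHom.comp_apply]
    change φ' (thC p b F) ∈ _ ↔ _
    rw [h3, ← hJ n, mem_thC]
  · intro n F
    obtain ⟨A, hA, hA'⟩ := J_repr (fun i => thC p b (f i)) hf2 n (thC p b F)
    refine ⟨A, hA, ?_⟩
    rw [← haev A, ← map_sub, ← hJ n, mem_thC] at hA'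
    exact hA'

/-- the kernel of the germ map is 930's germ ideal -/
theorem ker_eq_germ {τ : Type*} {c : ℕ} {p : σ → k} {f : Fin c → MvPolynomial σ k}
    {φ : MvPolynomial σ k →ₐ[k] MvPowerSeries τ k}
    (h : ∀ n F, φ F ∈ (ordI n : Ideal (MvPowerSeries τ k)) ↔ F ∈ J p f n) (F : MvPolynomial σ k) :
    φ F = 0 ↔ F ∈ germ p f := by
  rw [mem_germ]
  constructor
  · intro h0 n
    rw [← h, h0]
    exact Ideal.zero_mem _
  · intro h0
    exact eq_zero_of_mem_ordI fun n => (h n F).2 (h0 n)

theorem zc_single {τ : Type*} (p : σ → k) (x : τ → σ) (l : τ) :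
    zc p (fun l => (Pi.single (x l) (1 : k) : σ → k)) l = X (x l) - C (p (x l)) := by
  unfold zc
  rw [Finset.sum_eq_single (x l)]
  · simp only [Pi.single_eq_same, map_one, one_mul]
  · intro j _ hj
    simp only [Pi.single_eq_of_ne hj, map_zero, zero_mul]
  · intro h
    exact absurd (Finset.mem_univ _) h

/-- the local coordinates are the variables `x l` -/
theorem exists_germ_vars {τ : Type*} [Fintype τ] [DecidableEq τ] {c : ℕ} (p : σ → k)
    (f : Fin c → MvPolynomial σ k) (hf : ∀ i, eval p (f i) = 0) (x : τ → σ)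
    (hind : LinearIndependent k
      (Sum.elim (fun l => Pi.single (x l) (1 : k)) (fun i => grad p (f i)) : τ ⊕ Fin c → σ → k))
    (hcard : Fintype.card τ + c = Fintype.card σ) :
    ∃ φ : MvPolynomial σ k →ₐ[k] MvPowerSeries τ k,
      (∀ A : MvPolynomial τ k,
        φ (aeval (fun l => X (x l) - C (p (x l))) A) = (A : MvPowerSeries τ k)) ∧
      (∀ i, φ (f i) = 0) ∧
      (∀ n F, φ F ∈ (ordI n : Ideal (MvPowerSeries τ k)) ↔ F ∈ J p f n) ∧
      (∀ n F, ∃ A : MvPolynomial τ k, (∀ d ∈ A.support, d.degree < n) ∧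
        F - aeval (fun l => X (x l) - C (p (x l))) A ∈ J p f n) := by
  obtain ⟨φ, h1, h2, h3, h4⟩ := exists_germ_coord p f hf
    (fun l => (Pi.single (x l) (1 : k) : σ → k)) hind hcard
  have e : zc p (fun l => (Pi.single (x l) (1 : k) : σ → k)) =
      fun l => X (x l) - C (p (x l)) := funext fun l => zc_single p x l
  rw [e] at h1 h4
  exact ⟨φ, h1, h2, h3, h4⟩

end Vale.Agent.P054.T2.H192
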