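import Vale.Agent.P054.T2.H686.Par

set_option autoImplicit false

/-!
# P054 / T2, leaf [TREE]: the linear algebra of the case tree

`W k n = k^{2d}` with `d = n + 1` and the split form `Qf (ζ, θ) = ∑ ζ_i θ_i` (H686).  `V₁ ⊥ V₂` are
the direction spaces of `U₁ ∋ s`, `U₂ ∋ r`, and `w = s - r`.
-/

namespace Vale.Agent.P054.T2.H192

open H686 Module

variable {k : Type*} [Field k] {n : ℕ}

/-- the ambient space `k^{2d}`, `d = n + 1` -/
abbrev W (k : Type*) (n : ℕ) : Type _ := (Fin (n + 1) → k) × (Fin (n + 1) → k)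

theorem Bf_comm (s r : W k n) : Bf s r = Bf r s := by
  unfold Bf
  exact Finset.sum_congr rfl fun i _ => by ring

theorem Bf_add_right (s r r' : W k n) : Bf s (r + r') = Bf s r + Bf s r' := by
  simp only [Bf, ← Finset.sum_add_distrib, Prod.fst_add, Prod.snd_add, Pi.add_apply]
  exact Finset.sum_congr rfl fun i _ => by ring

theorem Bf_add_left (s s' r : W k n) : Bf (s + s') r = Bf s r + Bf s' r := by
  rw [Bf_comm, Bf_add_right, Bf_comm r s, Bf_comm r s']

theorem Bf_smul_left (c : k) (s r : W k n) : Bf (c • s) r = c * Bf s r := by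
  rw [Bf_comm, Bf_smul_right, Bf_comm]

theorem Bf_self (s : W k n) : Bf s s = 2 * Qf s := by
  unfold Bf Qf
  rw [Finset.mul_sum]
  exact Finset.sum_congr rfl fun i _ => by ring

/-- the polar form of `Qf`, as a bilinear form -/
noncomputable def Bl (k : Type*) [Field k] (n : ℕ) : LinearMap.BilinForm k (W k n) :=
  LinearMap.mk₂ k Bf Bf_add_left (fun c s r => Bf_smul_left c s r) Bf_add_right
    (fun c s r => Bf_smul_right c s r)

theorem Bl_apply (s r : W k n) : Bl k n s r = Bf s r := rfl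

theorem Bl_isRefl : (Bl k n).IsRefl := by
  intro s r h
  rw [Bl_apply] at *
  rw [Bf_comm]; exact h

theorem eq_zero_of_Bf (s : W k n) (h : ∀ r, Bf s r = 0) : s = 0 := by
  classical
  refine Prod.ext (funext fun i => ?_) (funext fun i => ?_)
  · have h1 := h (0, Pi.single i 1)
    simp only [Bf, Pi.zero_apply, zero_mul, add_zero] at h1
    rw [Finset.sum_eq_single i (fun j _ hj => by rw [Pi.single_eq_of_ne hj, mul_zero])
      (fun hi => absurd (Finset.mem_univ i) hi), Pi.single_eq_same, mul_one] at h1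
    exact h1
  · have h1 := h (Pi.single i 1, 0)
    simp only [Bf, Pi.zero_apply, mul_zero, zero_add] at h1
    rw [Finset.sum_eq_single i (fun j _ hj => by rw [Pi.single_eq_of_ne hj, zero_mul])
      (fun hi => absurd (Finset.mem_univ i) hi), Pi.single_eq_same, one_mul] at h1
    exact h1

theorem Bl_nondegenerate : (Bl k n).Nondegenerate := by
  refine ⟨fun s hs => ?_, fun s hs => ?_⟩
  · exact eq_zero_of_Bf s (fun r => hs r)
  · exact eq_zero_of_Bf s (fun r => by rw [Bf_comm]; exact hs r)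

/-- the orthogonal complement -/
noncomputable def orth (V : Submodule k (W k n)) : Submodule k (W k n) := (Bl k n).orthogonal V

theorem mem_orth {V : Submodule k (W k n)} {a : W k n} : a ∈ orth V ↔ ∀ b ∈ V, Bf b a = 0 := by
  unfold orth
  rw [LinearMap.BilinForm.mem_orthogonal_iff]
  rfl

theorem mem_orth' {V : Submodule k (W k n)} {a : W k n} : a ∈ orth V ↔ ∀ b ∈ V, Bf a b = 0 := by
  rw [mem_orth]
  exact forall₂_congr fun b _ => by rw [Bf_comm]

theorem finrank_W : finrank k (W k n) = 2 * (n + 1) := by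
  rw [Module.finrank_prod, Module.finrank_fin_fun, two_mul]

theorem finrank_orth (V : Submodule k (W k n)) :
    finrank k V + finrank k (orth V) = 2 * (n + 1) := by
  have h := LinearMap.BilinForm.finrank_orthogonal (B := Bl k n) Bl_nondegenerate V
  have h1 := Submodule.finrank_le V
  rw [finrank_W] at h h1
  unfold orth
  omega

/-- `V` is totally isotropic -/
def Iso (V : Submodule k (W k n)) : Prop := ∀ a ∈ V, Qf a = 0

theorem Iso.Bf_eq_zero {V : Submodule k (W k n)} (h : Iso V) {a b : W k n} (ha : a ∈ V)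
    (hb : b ∈ V) : Bf a b = 0 := by
  have h1 := h (a + b) (V.add_mem ha hb)
  rw [Qf_add, h a ha, h b hb] at h1
  simpa using h1

theorem Iso.mono {V V' : Submodule k (W k n)} (h : Iso V') (hV : V ≤ V') : Iso V :=
  fun a ha => h a (hV ha)

theorem iso_of_perp (h2 : (2 : k) ≠ 0) {V : Submodule k (W k n)}
    (h : ∀ a ∈ V, ∀ b ∈ V, Bf a b = 0) : Iso V := by
  intro a ha
  have h1 := h a ha a ha
  rw [Bf_self] at h1
  exact (mul_eq_zero.1 h1).resolve_left h2

theorem Iso.le_orth {V : Submodule k (W k n)} (h : Iso V) : V ≤ orth V :=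
  fun _ ha => mem_orth.2 fun _ hb => h.Bf_eq_zero hb ha

theorem Iso.finrank_le {V : Submodule k (W k n)} (h : Iso V) : finrank k V ≤ n + 1 := by
  have h1 := finrank_orth V
  have h2 := Submodule.finrank_mono h.le_orth
  omega

theorem Iso.eq_orth {V : Submodule k (W k n)} (h : Iso V) (hd : finrank k V = n + 1) :
    V = orth V := by
  have h1 := finrank_orth V
  exact Submodule.eq_of_le_of_finrank_eq h.le_orth (by omega)

/-- `V + k w` is isotropic when `V` is, `w ⊥ V` and `Q(w) = 0` -/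
theorem Iso.sup_span {V : Submodule k (W k n)} (h : Iso V) {w : W k n} (hw : Qf w = 0)
    (hwV : ∀ a ∈ V, Bf w a = 0) : Iso (V ⊔ Submodule.span k {w}) := by
  intro x hx
  obtain ⟨a, ha, b, hb, rfl⟩ := Submodule.mem_sup.1 hx
  obtain ⟨c, rfl⟩ := Submodule.mem_span_singleton.1 hb
  rw [Qf_add, h a ha, Bf_smul_right, Bf_comm, hwV a ha, Qf_smul, hw]
  simp

theorem finrank_sup_span_le (V : Submodule k (W k n)) (w : W k n) :
    finrank k ↥(V ⊔ Submodule.span k {w}) ≤ finrank k V + 1 := by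
  refine (Submodule.finrank_add_le_finrank_add_finrank _ _).trans ?_
  have h1 : finrank k (Submodule.span k ({w} : Set (W k n))) ≤ 1 := by
    refine (finrank_span_le_card ({w} : Set (W k n))).trans ?_
    simp
  omega

theorem finrank_sup_span (V : Submodule k (W k n)) {w : W k n} (hw : w ∉ V) :
    finrank k ↥(V ⊔ Submodule.span k {w}) = finrank k V + 1 := by
  refine le_antisymm (finrank_sup_span_le V w) ?_
  have h1 : V < V ⊔ Submodule.span k {w} := by
    refine lt_of_le_of_ne le_sup_left fun h => hw ?_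
    rw [h]
    exact Submodule.mem_sup_right (Submodule.mem_span_singleton_self w)
  exact Submodule.finrank_lt_finrank_of_lt h1

/-- **(T3)** both direction spaces of dimension `≥ d`, `w` in neither: `V₂ = V₁^⊥`, dimension `d`,
not isotropic. -/
theorem tree_big (V₁ V₂ : Submodule k (W k n)) (w : W k n)
    (hperp : ∀ a ∈ V₁, ∀ b ∈ V₂, Bf a b = 0)
    (hiso₂ : Iso V₂ → ∀ b ∈ V₂, Bf w b = 0)
    (hd₁ : n + 1 ≤ finrank k V₁) (hd₂ : n + 1 ≤ finrank k V₂) (hw₂ : w ∉ V₂) :
    finrank k V₁ = n + 1 ∧ finrank k V₂ = n + 1 ∧ V₂ = orth V₁ ∧ V₁ = orth V₂ ∧ ¬ Iso V₂ := by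
  have hle : V₂ ≤ orth V₁ := fun b hb => mem_orth.2 fun a ha => hperp a ha b hb
  have hle' : V₁ ≤ orth V₂ := fun a ha => mem_orth'.2 fun b hb => hperp a ha b hb
  have h1 := finrank_orth V₁
  have h2 := finrank_orth V₂
  have h3 := Submodule.finrank_mono hle
  have h4 := Submodule.finrank_mono hle'
  have h5 : V₂ = orth V₁ := Submodule.eq_of_le_of_finrank_eq hle (by omega)
  have h6 : V₁ = orth V₂ := Submodule.eq_of_le_of_finrank_eq hle' (by omega)
  refine ⟨by omega, by omega, h5, h6, fun hI => hw₂ ?_⟩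
  have h7 : V₂ = orth V₂ := hI.eq_orth (by omega)
  rw [h7]
  exact mem_orth'.2 (hiso₂ hI)

/-- **[TREE]** the complete case tree (441 #15900, with the sub-cases `(A')`, `(B')` of maximal
isotropic `V₂ + k w`, `V₁ + k w` split off).  Hypotheses: `V₁ ⊥ V₂`; `Q(w) = 0`; an isotropic `Vᵢ`
is orthogonal to `w`; `w ∈ V₂` (resp. `V₁`) forces `V₁ ≤ V₂` (resp. `V₂ ≤ V₁`). -/
theorem tree (h2 : (2 : k) ≠ 0) (V₁ V₂ : Submodule k (W k n)) (w : W k n)
    (hperp : ∀ a ∈ V₁, ∀ b ∈ V₂, Bf a b = 0)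
    (hiso₁ : Iso V₁ → ∀ a ∈ V₁, Bf w a = 0) (hiso₂ : Iso V₂ → ∀ b ∈ V₂, Bf w b = 0)
    (hw₁ : w ∈ V₁ → V₂ ≤ V₁) (hw₂ : w ∈ V₂ → V₁ ≤ V₂) :
    -- (A0) count from `s`, linear section
    (w ∉ V₂ ∧ finrank k V₂ ≤ n ∧ (finrank k V₂ < n ∨ ¬ Iso (V₂ ⊔ Submodule.span k {w}))) ∨
    -- (A') count from `s`, `V₂ + k w` maximal isotropic
    (w ∉ V₂ ∧ finrank k V₂ = n ∧ Iso (V₂ ⊔ Submodule.span k {w}) ∧
      finrank k ↥(V₂ ⊔ Submodule.span k {w}) = n + 1) ∨
    -- (B0) count from `r`, linear section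
    (w ∉ V₁ ∧ finrank k V₁ ≤ n ∧ (finrank k V₁ < n ∨ ¬ Iso (V₁ ⊔ Submodule.span k {w}))) ∨
    -- (B') count from `r`, `V₁ + k w` maximal isotropic
    (w ∉ V₁ ∧ finrank k V₁ = n ∧ Iso (V₁ ⊔ Submodule.span k {w}) ∧
      finrank k ↥(V₁ ⊔ Submodule.span k {w}) = n + 1) ∨
    -- (C) stereographic projection
    (w ∉ V₁ ∧ w ∉ V₂ ∧ finrank k V₁ = n + 1 ∧ finrank k V₂ = n + 1 ∧ V₂ = orth V₁ ∧
      V₁ = orth V₂ ∧ ¬ Iso V₁ ∧ ¬ Iso V₂) ∨
    -- (N) one isotropic flat
    (w ∈ V₁ ∧ V₁ = V₂ ∧ Iso V₁ ∧ finrank k V₁ ≤ n + 1) := by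
  by_cases hwm₂ : w ∈ V₂
  · have h12 := hw₂ hwm₂
    have hI₁ : Iso V₁ := iso_of_perp h2 fun a ha b hb => hperp a ha b (h12 hb)
    by_cases hwm₁ : w ∈ V₁
    · refine Or.inr (Or.inr (Or.inr (Or.inr (Or.inr ⟨hwm₁, ?_, hI₁, hI₁.finrank_le⟩))))
      exact le_antisymm h12 (hw₁ hwm₁)
    · -- count from `r`
      have hd : finrank k V₁ ≤ n := by
        by_contra hcon
        have h3 := hI₁.finrank_le
        have h4 : finrank k V₁ = n + 1 := by omega
        have h5 : V₂ ≤ orth V₁ := fun b hb => mem_orth.2 fun a ha => hperp a ha b hb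
        rw [← hI₁.eq_orth h4] at h5
        exact hwm₁ (h5 hwm₂)
      by_cases hI : Iso (V₁ ⊔ Submodule.span k {w})
      · rcases Nat.lt_or_ge (finrank k V₁) n with hlt | hge
        · exact Or.inr (Or.inr (Or.inl ⟨hwm₁, hd, Or.inl hlt⟩))
        · have h6 : finrank k V₁ = n := le_antisymm hd hge
          exact Or.inr (Or.inr (Or.inr (Or.inl ⟨hwm₁, h6, hI, by
            rw [finrank_sup_span V₁ hwm₁, h6]⟩)))
      · exact Or.inr (Or.inr (Or.inl ⟨hwm₁, hd, Or.inr hI⟩))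
  · rcases Nat.lt_or_ge n (finrank k V₂) with hbig | hsm
    · by_cases hwm₁ : w ∈ V₁
      · -- `V₂ ≤ V₁`, so `V₂` isotropic of dimension `d`, `V₁ ≤ V₂^⊥ = V₂`
        exfalso
        have h21 := hw₁ hwm₁
        have hI₂ : Iso V₂ := iso_of_perp h2 fun a ha b hb => hperp a (h21 ha) b hb
        have h3 := hI₂.finrank_le
        have h4 : finrank k V₂ = n + 1 := by omega
        have h5 : V₁ ≤ orth V₂ := fun a ha => mem_orth'.2 fun b hb => hperp a ha b hb
        rw [← hI₂.eq_orth h4] at h5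
        exact hwm₂ (h5 hwm₁)
      · rcases Nat.lt_or_ge n (finrank k V₁) with hbig₁ | hsm₁
        · obtain ⟨e1, e2, e3, e4, e5⟩ :=
            tree_big V₁ V₂ w hperp hiso₂ (by omega) (by omega) hwm₂
          refine Or.inr (Or.inr (Or.inr (Or.inr (Or.inl
            ⟨hwm₁, hwm₂, e1, e2, e3, e4, fun hI => hwm₁ ?_, e5⟩))))
          have h7 : V₁ = orth V₁ := hI.eq_orth e1
          rw [h7]
          exact mem_orth'.2 (hiso₁ hI)
        · by_cases hI : Iso (V₁ ⊔ Submodule.span k {w})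
          · rcases Nat.lt_or_ge (finrank k V₁) n with hlt | hge
            · exact Or.inr (Or.inr (Or.inl ⟨hwm₁, hsm₁, Or.inl hlt⟩))
            · have h6 : finrank k V₁ = n := le_antisymm hsm₁ hge
              exact Or.inr (Or.inr (Or.inr (Or.inl ⟨hwm₁, h6, hI, by
                rw [finrank_sup_span V₁ hwm₁, h6]⟩)))
          · exact Or.inr (Or.inr (Or.inl ⟨hwm₁, hsm₁, Or.inr hI⟩))
    · by_cases hI : Iso (V₂ ⊔ Submodule.span k {w})
      · rcases Nat.lt_or_ge (finrank k V₂) n with hlt | hge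
        · exact Or.inl ⟨hwm₂, hsm, Or.inl hlt⟩
        · have h6 : finrank k V₂ = n := le_antisymm hsm hge
          exact Or.inr (Or.inl ⟨hwm₂, h6, hI, by rw [finrank_sup_span V₂ hwm₂, h6]⟩)
      · exact Or.inl ⟨hwm₂, hsm, Or.inr hI⟩

end Vale.Agent.P054.T2.H192
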