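import Vale.Agent.P054.T2.H192.KSide
import Vale.Agent.P054.T2.H94.ZSide
import Vale.Agent.P054.T2.H981.ProdSide

set_option autoImplicit false
set_option linter.unusedSectionVars false

/-!
# P054 / T2, [KP-SIDE] for the two sides built by 94 from `ZData` and leaf data
-/

open MvPolynomial Module

namespace Vale.Agent.P054.T2.H192

open H930 H686 SecC H94 H580

variable {n : ℕ}

section Z

variable {E0 E1 E2 A A' : Finset (ZZ n × ZZ n)} {W D W' D' N c₀ c₁ c₂ σ₁ σ₂ v₁ v₂ : ℕ}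

/-- hK1, hK2 of `prod_side`, `class_Z` for `side₁`, `side₂` -/
theorem kp_z (Z : ZData ℝ n E0 E1 E2 (wh W) N c₀ c₁ c₂ σ₁ σ₂)
    (hc₂ : c₂ = 2 * (n + 1) - v₂) (hc₁ : c₁ = 2 * (n + 1) - v₁)
    (L₁ : LeafData E0 E2 W N σ₁) (L₂ : LeafData (swp E0) (swp E2) W N σ₂) (hA : A ⊆ E2)
    (hW : 1 ≤ W) (hD : 1 ≤ D) (hN : N ≤ D * W) (hσ₁ : σ₁ ≤ n) (hσ₁1 : 1 ≤ σ₁) (hσ₂ : σ₂ ≤ n)
    (hσ₂1 : 1 ≤ σ₂) (hv₁ : v₁ ≤ 2 * (n + 1)) (hv₂ : v₂ ≤ 2 * (n + 1))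
    (hc₀ : c₀ + (σ₁ + σ₂) = 2 * n + 1) {e : ZZ n × ZZ n} (he : e ∈ A) :
    (∀ G : MvPolynomial (ZI n) ℝ, rename (fun x => Sum.inr (Sum.inr x)) G
      ∈ germ (edgePt e.1 e.2) Z.F ↔ G ∈ (side₁ Z hc₂ L₁ hA hW hD hN hσ₁ hσ₁1 hv₂).Pr e) ∧
    (∀ G : MvPolynomial (ZI n) ℝ, rename (fun x => Sum.inr (Sum.inl x)) G
      ∈ germ (edgePt e.1 e.2) Z.F ↔ G ∈ (side₂ Z hc₁ L₂ hA hW hD hN hσ₂ hσ₂1 hv₁).Pr e.swap) := by
  have he2 : e ∈ E2 := hA he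
  have hes : e.swap ∈ swp A := mem_swp.2 (by rw [Prod.swap_swap]; exact he)
  refine kp_side_good Z (side₁ Z hc₂ L₁ hA hW hD hN hσ₁ hσ₁1 hv₂)
    (side₂ Z hc₁ L₂ hA hW hD hN hσ₂ hσ₂1 hv₁) he2 he hes (by omega) (by omega) hc₀
    (Eg := E0) (Eg' := swp E0) (Finset.Subset.refl _) (fun x hx => mem_swp.1 hx)
    (fun G hG h => L₁.good e he2 G hG h)
    (fun G hG h => L₂.good e.swap (mem_swp.2 (by rw [Prod.swap_swap]; exact he2)) G hG h) ?_ ?_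
  · intro j
    refine side₁_pullh Z hc₂ L₁ hA hW hD hN hσ₁ hσ₁1 hv₂ he ?_
    have h := f_mem_germ (hatPt e.2 (mu e.2 e.1))
      (Fin.append (fun i => rename Sum.inl (Z.f i)) Z.h') (Fin.natAdd _ j)
    rw [Fin.append_right] at h
    exact h
  · intro j
    refine side₂_pullh Z hc₁ L₂ hA hW hD hN hσ₂ hσ₂1 hv₁ hes ?_
    have h := f_mem_germ (hatPt e.1 (mu e.1 e.2))
      (Fin.append (fun i => rename Sum.inl (Z.f i)) Z.h) (Fin.natAdd _ j)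
    rw [Fin.append_right] at h
    exact h

/-- the restriction conditions of `kp_core` for `side₁`, `side₂` -/
theorem kp_z_core (Z : ZData ℝ n E0 E1 E2 (wh W) N c₀ c₁ c₂ σ₁ σ₂)
    (hc₂ : c₂ = 2 * (n + 1) - v₂) (hc₁ : c₁ = 2 * (n + 1) - v₁)
    (L₁ : LeafData E0 E2 W N σ₁) (L₂ : LeafData (swp E0) (swp E2) W N σ₂) (hA : A ⊆ E2)
    (hW : 1 ≤ W) (hD : 1 ≤ D) (hN : N ≤ D * W) (hσ₁ : σ₁ ≤ n) (hσ₁1 : 1 ≤ σ₁) (hσ₂ : σ₂ ≤ n)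
    (hσ₂1 : 1 ≤ σ₂) (hv₁ : v₁ ≤ 2 * (n + 1)) (hv₂ : v₂ ≤ 2 * (n + 1)) {e : ZZ n × ZZ n}
    (he : e ∈ A) :
    (∀ i, thS e.1 (Z.F i) ∈
      germ (hpt e.1 e.2) ((side₁ Z hc₂ L₁ hA hW hD hN hσ₁ hσ₁1 hv₂).F e.1)) ∧
    (∀ i, thR e.2 (Z.F i) ∈
      germ (hpt e.2 e.1) ((side₂ Z hc₁ L₂ hA hW hD hN hσ₂ hσ₂1 hv₁).F e.2)) := by
  have he2 : e ∈ E2 := hA he
  have hes : e.swap ∈ swp A := mem_swp.2 (by rw [Prod.swap_swap]; exact he)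
  have g₁ := good_side₁ Z L₁.f (e := e) fun G hG h =>
    L₁.good e he2 G hG fun e' he' => h e' he'
  have g₂ := good_side₂ Z L₂.f (e := e) fun G hG h =>
    L₂.good e.swap (mem_swp.2 (by rw [Prod.swap_swap]; exact he2)) G hG
      fun e' he' => h e'.swap (mem_swp.1 he')
  refine ⟨thS_F_mem Z (side₁ Z hc₂ L₁ hA hW hD hN hσ₁ hσ₁1 hv₂) e g₁.1 g₁.2 ?_,
    thR_F_mem Z (side₂ Z hc₁ L₂ hA hW hD hN hσ₂ hσ₂1 hv₁) e g₂.1 g₂.2 ?_⟩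
  · intro j
    refine side₁_pullh Z hc₂ L₁ hA hW hD hN hσ₁ hσ₁1 hv₂ he ?_
    have h := f_mem_germ (hatPt e.2 (mu e.2 e.1))
      (Fin.append (fun i => rename Sum.inl (Z.f i)) Z.h') (Fin.natAdd _ j)
    rw [Fin.append_right] at h
    exact h
  · intro j
    refine side₂_pullh Z hc₁ L₂ hA hW hD hN hσ₂ hσ₂1 hv₁ hes ?_
    have h := f_mem_germ (hatPt e.1 (mu e.1 e.2))
      (Fin.append (fun i => rename Sum.inl (Z.f i)) Z.h) (Fin.natAdd _ j)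
    rw [Fin.append_right] at h
    exact h

end Z

end Vale.Agent.P054.T2.H192
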