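import Vale.Agent.P054.T2.H622.SmoothAt

set_option autoImplicit false

/-!
# P054 / T2, leaf [HOM]: `λ - 1 ∈ P` (class in an affine hyperplane not through the base point):
every polynomial of degree `≤ T` is congruent mod `P` to a homogeneous polynomial of degree `T`
(centred at `s`).  Same output format as `H622.smoothAt` (with `B = 0`, any `a ≤ T`).
-/

open MvPolynomial

namespace Vale.Agent.P054.T2.H192

open H622

variable {ι : Type*} {k : Type*} [Field k]

/-- a homogeneous polynomial of degree `T` has order `≥ a` at the origin for `a ≤ T` -/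
theorem ord_of_isHomogeneous {F : MvPolynomial ι k} {T a : ℕ} (hF : F.IsHomogeneous T)
    (ha : a ≤ T) : Ord a F := by
  intro d hd
  exact hF.coeff_eq_zero (by omega)

/-- homogenisation by the linear form `l` at the origin -/
theorem hom0 (P : Ideal (MvPolynomial ι k)) (l : MvPolynomial ι k) (hl : l.IsHomogeneous 1)
    (hlP : l - 1 ∈ P) (T : ℕ) (F : MvPolynomial ι k) (hF : F.totalDegree ≤ T) :
    ∃ R : MvPolynomial ι k, R.IsHomogeneous T ∧ F - R ∈ P := by
  refine ⟨∑ i ∈ Finset.range (F.totalDegree + 1), homogeneousComponent i F * l ^ (T - i), ?_, ?_⟩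
  · refine IsHomogeneous.sum _ _ _ fun i hi => ?_
    have h1 : i ≤ T := by
      have := Finset.mem_range.1 hi; omega
    have h2 := (homogeneousComponent_isHomogeneous i F).mul (hl.pow (T - i))
    have h3 : i + 1 * (T - i) = T := by omega
    rwa [h3] at h2
  · have h1 : F = ∑ i ∈ Finset.range (F.totalDegree + 1), homogeneousComponent i F :=
      (sum_homogeneousComponent F).symm
    have h2 : F - ∑ i ∈ Finset.range (F.totalDegree + 1), homogeneousComponent i F * l ^ (T - i) =
        ∑ i ∈ Finset.range (F.totalDegree + 1), homogeneousComponent i F * (1 - l ^ (T - i)) := by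
      simp only [mul_sub, mul_one, Finset.sum_sub_distrib]
      rw [← h1]
    rw [h2]
    refine P.sum_mem fun i _ => P.mul_mem_left _ ?_
    have h3 : l - 1 ∣ l ^ (T - i) - 1 := by
      simpa using sub_dvd_pow_sub_pow l 1 (T - i)
    obtain ⟨c, hc⟩ := h3
    have h4 : (1 : MvPolynomial ι k) - l ^ (T - i) = -(c * (l - 1)) := by
      rw [mul_comm c, ← hc]; ring
    rw [h4]
    exact P.neg_mem (P.mul_mem_left _ hlP)

/-- **[HOM]**, same format as `smoothAt` -/
theorem homAt (P : Ideal (MvPolynomial ι k)) (s : ι → k) (l : MvPolynomial ι k)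
    (hl : l.IsHomogeneous 1) (hlP : tr (-s) l - 1 ∈ P) (T : ℕ) (F : MvPolynomial ι k)
    (hF : F.totalDegree ≤ T) (a : ℕ) (ha : a ≤ T) :
    ∃ A ∈ P, A.totalDegree ≤ T ∧ ∃ R ∈ Nsp s T a, (tr s R).IsHomogeneous T ∧ F = A + R := by
  have h1 : l - 1 ∈ P.comap (tr (-s)).toRingHom := by
    rw [Ideal.mem_comap]
    simpa using hlP
  obtain ⟨R, hR, hP⟩ := hom0 (P.comap (tr (-s)).toRingHom) l hl h1 T (tr s F)
    ((totalDegree_tr_le _ _).trans hF)
  rw [Ideal.mem_comap] at hP
  have h2 : F - tr (-s) R ∈ P := by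
    have h3 : (tr (-s)).toRingHom (tr s F - R) = F - tr (-s) R := by
      simp [tr_neg_tr]
    rwa [h3] at hP
  have hRT : (tr (-s) R).totalDegree ≤ T :=
    (totalDegree_tr_le _ _).trans hR.totalDegree_le
  refine ⟨F - tr (-s) R, h2, (totalDegree_sub _ _).trans (max_le hF hRT), tr (-s) R,
    ⟨hRT, ?_⟩, ?_, by ring⟩
  · rw [OrdAt, tr_tr_neg]
    exact ord_of_isHomogeneous hR ha
  · rw [tr_tr_neg]; exact hR

end Vale.Agent.P054.T2.H192
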