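import Vale.Agent.P054.T2.H192.Sel
import Vale.Agent.P054.T2.H930.TanEdge
import Vale.Agent.P054.T2.H192.Tree

set_option autoImplicit false
set_option linter.unusedSectionVars false

/-!
# P054 / T2, [K'] and the product germ at an edge `(s, r)`, in the coordinates of 686 / 930 / 428
-/

open MvPolynomial Module

namespace Vale.Agent.P054.T2.H192

open H930 H686

variable {k : Type*} [Field k] {n : ℕ}

/-- restriction of `k[g, s, r]` to the hat leaf of `s` : `g` on the leaf of `s`, `s` fixed -/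
noncomputable def thS (s : W k n) :
    MvPolynomial (Crd n ⊕ (Pt n ⊕ Pt n)) k →ₐ[k] MvPolynomial (Fin n ⊕ Pt n) k :=
  aeval (Sum.elim (fun x => rename Sum.inl (pull s (X x)))
    (Sum.elim (fun y => C (ptc s y)) (fun y => X (Sum.inr y))))

/-- restriction of `k[g, s, r]` to the hat leaf of `r` : `g` on the leaf of `r`, `r` fixed -/
noncomputable def thR (r : W k n) :
    MvPolynomial (Crd n ⊕ (Pt n ⊕ Pt n)) k →ₐ[k] MvPolynomial (Fin n ⊕ Pt n) k :=
  aeval (Sum.elim (fun x => rename Sum.inl (pull r (X x)))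
    (Sum.elim (fun y => X (Sum.inr y)) (fun y => C (ptc r y))))

/-- the point of the edge on the hat leaf of `s` (428's `hx`) -/
noncomputable def hpt (s r : W k n) : Fin n ⊕ Pt n → k := Sum.elim (mu s r) (ptc r)

theorem eval_pull_X (s : W k n) (u : Fin n → k) (x : Crd n) :
    eval u (pull s (X x)) = leaf s u x := by
  rw [eval_pull, eval_X]

theorem eval_thS (s r : W k n) (G : MvPolynomial (Crd n ⊕ (Pt n ⊕ Pt n)) k) :
    eval (hpt s r) (thS s G) = eval (edgePt s r) G := by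
  have : ((aeval (hpt s r) : MvPolynomial (Fin n ⊕ Pt n) k →ₐ[k] k).comp (thS s)) =
      (aeval (edgePt s r) : MvPolynomial (Crd n ⊕ (Pt n ⊕ Pt n)) k →ₐ[k] k) := by
    apply algHom_ext
    intro x
    rcases x with x | y | y
    · simp only [AlgHom.comp_apply, thS, aeval_X, Sum.elim_inl, edgePt, aeval_eq_eval]
      change eval (hpt s r) (rename Sum.inl (pull s (X x))) = meet s r x
      rw [eval_rename]
      exact eval_pull_X s (mu s r) x
    · simp [thS, edgePt]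
    · simp [thS, edgePt, hpt]
  have h := congrArg (fun φ : MvPolynomial (Crd n ⊕ (Pt n ⊕ Pt n)) k →ₐ[k] k => φ G) this
  simpa [AlgHom.comp_apply, aeval_eq_eval] using h

theorem eval_thR {s r : W k n} (h0 : s.1 0 ≠ r.1 0) (hq : Qf (s - r) = 0)
    (G : MvPolynomial (Crd n ⊕ (Pt n ⊕ Pt n)) k) :
    eval (hpt r s) (thR r G) = eval (edgePt s r) G := by
  have : ((aeval (hpt r s) : MvPolynomial (Fin n ⊕ Pt n) k →ₐ[k] k).comp (thR r)) =
      (aeval (edgePt s r) : MvPolynomial (Crd n ⊕ (Pt n ⊕ Pt n)) k →ₐ[k] k) := by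
    apply algHom_ext
    intro x
    rcases x with x | y | y
    · simp only [AlgHom.comp_apply, thR, aeval_X, Sum.elim_inl, edgePt, aeval_eq_eval]
      change eval (hpt r s) (rename Sum.inl (pull r (X x))) = meet s r x
      rw [eval_rename, meet_comm h0 hq]
      exact eval_pull_X r (mu r s) x
    · simp [thR, edgePt, hpt]
    · simp [thR, edgePt]
  have h := congrArg (fun φ : MvPolynomial (Crd n ⊕ (Pt n ⊕ Pt n)) k →ₐ[k] k => φ G) this
  simpa [AlgHom.comp_apply, aeval_eq_eval] using h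

/-- transversality of the two leaves on the tangent space of `Z⁺` -/
theorem tsp_transversal {c : ℕ} {s r : W k n} (h0 : s.1 0 ≠ r.1 0)
    (F : Fin c → MvPolynomial (Crd n ⊕ (Pt n ⊕ Pt n)) k)
    (hF0 : ∀ i, eval (edgePt s r) (F i) = 0)
    (hinc₁ : ∀ i, rename (j1 n) (incP k n i) ∈ germ (edgePt s r) F)
    (hinc₂ : ∀ i, rename (j2 n) (incP k n i) ∈ germ (edgePt s r) F) :
    ∀ w ∈ tsp (edgePt s r) F, (∀ y, w (Sum.inr (Sum.inl y)) = 0) →
      (∀ y, w (Sum.inr (Sum.inr y)) = 0) → w = 0 := by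
  classical
  intro w hw hs hr
  let φ₀ : MvPolynomial (Crd n ⊕ (Pt n ⊕ Pt n)) k →ₐ[k] MvPowerSeries (Fin 0) k :=
    (Algebra.ofId k (MvPowerSeries (Fin 0) k)).comp (aeval (edgePt s r))
  have hφ₀ : ∀ G, MvPowerSeries.constantCoeff (φ₀ G) = eval (edgePt s r) G := by
    intro G
    change MvPowerSeries.constantCoeff (algebraMap k (MvPowerSeries (Fin 0) k)
      (aeval (edgePt s r) G)) = _
    rw [MvPowerSeries.algebraMap_apply, MvPowerSeries.constantCoeff_C, aeval_eq_eval]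
    rfl
  have hg : (fun x => w (Sum.inl x)) = 0 := by
    refine inc_inj φ₀ (MvPowerSeries.constantCoeff) (by
      rw [hφ₀, hφ₀, eval_X, eval_X]; exact h0) _ ?_
    intro i
    have h1 : (Sum.elim (fun i => rename (j1 n) (incP k n i))
        (fun i => rename (j2 n) (incP k n i)) :
        (Fin n ⊕ Unit) ⊕ (Fin n ⊕ Unit) → MvPolynomial (Crd n ⊕ (Pt n ⊕ Pt n)) k) i ∈
        germ (edgePt s r) F := by
      rcases i with i | i
      · exact hinc₁ i
      · exact hinc₂ i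
    have h2 := tsp_germ hF0 h1 hw
    rw [Fintype.sum_sum_type] at h2
    rw [Finset.sum_eq_zero (s := (Finset.univ : Finset (Pt n ⊕ Pt n))) (fun y _ => by
      rcases y with y | y
      · rw [hs y, mul_zero]
      · rw [hr y, mul_zero]), add_zero] at h2
    rw [← h2]
    refine Finset.sum_congr rfl fun x _ => ?_
    unfold cf grad
    rw [hφ₀]
  funext x
  rcases x with x | y | y
  · exact congrFun hg x
  · exact hs y
  · exact hr y

theorem thS_inj (s r : W k n) (w : Fin n ⊕ Pt n → k) (h : dth (thS s) (hpt s r) w = 0) :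
    w = 0 := by
  classical
  funext x
  rcases x with i | y
  · have h1 := congrFun h (Sum.inl (Sum.inl i))
    rw [dth_apply] at h1
    have h2 : thS s (X (Sum.inl (Sum.inl i))) = X (Sum.inl i) := by
      simp [thS, pull]
    rw [h2, Finset.sum_eq_single (Sum.inl i)] at h1
    · rwa [pderiv_X_self, map_one, mul_one] at h1
    · intro z _ hz
      rw [pderiv_X_of_ne (Ne.symm hz), map_zero, mul_zero]
    · intro h; exact absurd (Finset.mem_univ _) h
  · have h1 := congrFun h (Sum.inr (Sum.inr y))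
    rw [dth_apply] at h1
    have h2 : thS s (X (Sum.inr (Sum.inr y))) = X (Sum.inr y) := by
      simp [thS]
    rw [h2, Finset.sum_eq_single (Sum.inr y)] at h1
    · rwa [pderiv_X_self, map_one, mul_one] at h1
    · intro z _ hz
      rw [pderiv_X_of_ne (Ne.symm hz), map_zero, mul_zero]
    · intro h; exact absurd (Finset.mem_univ _) h

theorem thR_inj (s r : W k n) (w : Fin n ⊕ Pt n → k) (h : dth (thR r) (hpt r s) w = 0) :
    w = 0 := by
  classical
  funext x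
  rcases x with i | y
  · have h1 := congrFun h (Sum.inl (Sum.inl i))
    rw [dth_apply] at h1
    have h2 : thR r (X (Sum.inl (Sum.inl i))) = X (Sum.inl i) := by
      simp [thR, pull]
    rw [h2, Finset.sum_eq_single (Sum.inl i)] at h1
    · rwa [pderiv_X_self, map_one, mul_one] at h1
    · intro z _ hz
      rw [pderiv_X_of_ne (Ne.symm hz), map_zero, mul_zero]
    · intro h; exact absurd (Finset.mem_univ _) h
  · have h1 := congrFun h (Sum.inr (Sum.inl y))
    rw [dth_apply] at h1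
    have h2 : thR r (X (Sum.inr (Sum.inl y))) = X (Sum.inr y) := by
      simp [thR]
    rw [h2, Finset.sum_eq_single (Sum.inr y)] at h1
    · rwa [pderiv_X_self, map_one, mul_one] at h1
    · intro z _ hz
      rw [pderiv_X_of_ne (Ne.symm hz), map_zero, mul_zero]
    · intro h; exact absurd (Finset.mem_univ _) h

theorem leafIn_S {c c₁ : ℕ} (s r : W k n) {F : Fin c → MvPolynomial (Crd n ⊕ (Pt n ⊕ Pt n)) k}
    {F₁ : Fin c₁ → MvPolynomial (Fin n ⊕ Pt n) k}
    (h10 : ∀ i, eval (hpt s r) (F₁ i) = 0)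
    (h1i : LinearIndependent k (fun i => grad (hpt s r) (F₁ i)))
    (h1F : ∀ i, thS s (F i) ∈ germ (hpt s r) F₁) :
    LeafIn (edgePt s r) F (Sum.inr ∘ Sum.inl) (Sum.inr ∘ Sum.inr) (hpt s r) F₁ (thS s) where
  hF0 := h10
  hind := h1i
  hθp := eval_thS s r
  hθF := h1F
  hθY y := by simp [thS]
  hθS y := ⟨ptc s y, by simp [thS]⟩
  hinj := thS_inj s r

theorem leafIn_R {c c₂ : ℕ} {s r : W k n} (h0 : s.1 0 ≠ r.1 0) (hq : Qf (s - r) = 0)
    {F : Fin c → MvPolynomial (Crd n ⊕ (Pt n ⊕ Pt n)) k}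
    {F₂ : Fin c₂ → MvPolynomial (Fin n ⊕ Pt n) k}
    (h20 : ∀ i, eval (hpt r s) (F₂ i) = 0)
    (h2i : LinearIndependent k (fun i => grad (hpt r s) (F₂ i)))
    (h2F : ∀ i, thR r (F i) ∈ germ (hpt r s) F₂) :
    LeafIn (edgePt s r) F (Sum.inr ∘ Sum.inr) (Sum.inr ∘ Sum.inl) (hpt r s) F₂ (thR r) where
  hF0 := h20
  hind := h2i
  hθp := eval_thR h0 hq
  hθF := h2F
  hθY y := by simp [thR]
  hθS y := ⟨ptc r y, by simp [thR]⟩
  hinj := thR_inj s r

/-- **[K'] and the product germ at an edge.** `F` : the system of `Z⁺`, `F₁` : the hat-leaf system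
of `s` at `(mu s r, r)`, `F₂` : the hat-leaf system of `r` at `(mu r s, s)`; `b₁ = σ₁ + v₂`,
`b₂ = σ₂ + v₁`. -/
theorem product_at_edge [CharZero k] {c c₁ c₂ b₁ b₂ : ℕ} {s r : W k n} (h0 : s.1 0 ≠ r.1 0)
    (hq : Qf (s - r) = 0)
    (F : Fin c → MvPolynomial (Crd n ⊕ (Pt n ⊕ Pt n)) k)
    (hF0 : ∀ i, eval (edgePt s r) (F i) = 0)
    (hind : LinearIndependent k (fun i => grad (edgePt s r) (F i)))
    (F₁ : Fin c₁ → MvPolynomial (Fin n ⊕ Pt n) k)
    (h10 : ∀ i, eval (hpt s r) (F₁ i) = 0)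
    (h1i : LinearIndependent k (fun i => grad (hpt s r) (F₁ i)))
    (h1F : ∀ i, thS s (F i) ∈ germ (hpt s r) F₁)
    (F₂ : Fin c₂ → MvPolynomial (Fin n ⊕ Pt n) k)
    (h20 : ∀ i, eval (hpt r s) (F₂ i) = 0)
    (h2i : LinearIndependent k (fun i => grad (hpt r s) (F₂ i)))
    (h2F : ∀ i, thR r (F i) ∈ germ (hpt r s) F₂)
    (hinc₁ : ∀ i, rename (j1 n) (incP k n i) ∈ germ (edgePt s r) F)
    (hinc₂ : ∀ i, rename (j2 n) (incP k n i) ∈ germ (edgePt s r) F)
    (hb₁ : b₁ + c₁ = n + 2 * (n + 1)) (hb₂ : b₂ + c₂ = n + 2 * (n + 1))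
    (hc : (b₂ + b₁) + c = 2 * n + 1 + 4 * (n + 1))
    {L : Type*} [Field L] (ι : MvPowerSeries (Fin (b₂ + b₁)) k →+* L)
    (hι : Function.Injective ι)
    (hsplit : ∀ φ : MvPolynomial (Crd n ⊕ (Pt n ⊕ Pt n)) k →ₐ[k]
        MvPowerSeries (Fin (b₂ + b₁)) k,
      (∀ G, MvPowerSeries.constantCoeff (φ G) = eval (edgePt s r) G) →
      (∀ m G, φ G ∈ (ordI m : Ideal (MvPowerSeries (Fin (b₂ + b₁)) k)) ↔
        G ∈ J (edgePt s r) F m) →
      ∀ a : Fin (b₂ + b₁) → Crd n ⊕ (Pt n ⊕ Pt n) → k,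
      (∀ l, φ (∑ j, C (a l j) * (MvPolynomial.X j - C (edgePt s r j))) = MvPowerSeries.X l) →
      ∀ l, ∃ α : Fin (b₂ + b₁) → L,
        (∀ y : Pt n, ∑ m, α m * ι (MvPowerSeries.pderiv k m
          (φ (MvPolynomial.X (Sum.inr (Sum.inr y))))) = 0) ∧
        (∀ y : Pt n, ∑ m, α m * ι (MvPowerSeries.pderiv k m
          (φ (MvPolynomial.X (Sum.inr (Sum.inl y))))) =
            ι (MvPowerSeries.pderiv k l (φ (MvPolynomial.X (Sum.inr (Sum.inl y))))))) :
    ∃ (φ : MvPolynomial (Crd n ⊕ (Pt n ⊕ Pt n)) k →ₐ[k] MvPowerSeries (Fin (b₂ + b₁)) k)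
      (x₂ : Fin b₂ → Pt n) (x₁ : Fin b₁ → Pt n),
      (∀ m G, φ G ∈ (ordI m : Ideal (MvPowerSeries (Fin (b₂ + b₁)) k)) ↔
        G ∈ J (edgePt s r) F m) ∧
      (∀ G, MvPowerSeries.constantCoeff (φ G) = eval (edgePt s r) G) ∧
      (∀ l, φ (MvPolynomial.X (Sum.inr (Sum.inl (x₂ l))) - C (ptc s (x₂ l))) =
        MvPowerSeries.X (Fin.castAdd b₁ l)) ∧
      (∀ l, φ (MvPolynomial.X (Sum.inr (Sum.inr (x₁ l))) - C (ptc r (x₁ l))) =
        MvPowerSeries.X (Fin.natAdd b₂ l)) ∧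
      (∀ y : Pt n, Dep (Set.range (Fin.castAdd b₁)) (φ (MvPolynomial.X (Sum.inr (Sum.inl y))))) ∧
      (∀ y : Pt n, Dep (Set.range (Fin.natAdd b₂)) (φ (MvPolynomial.X (Sum.inr (Sum.inr y))))) ∧
      (∀ G : MvPolynomial (Pt n) k, rename (Sum.inr ∘ Sum.inr) G ∈ germ (edgePt s r) F ↔
        rename Sum.inr G ∈ germ (hpt s r) F₁) ∧
      (∀ G : MvPolynomial (Pt n) k, rename (Sum.inr ∘ Sum.inl) G ∈ germ (edgePt s r) F ↔
        rename Sum.inr G ∈ germ (hpt r s) F₂) := by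
  have hcard1 : Fintype.card (Fin n ⊕ Pt n) = n + 2 * (n + 1) := by
    simp only [Fintype.card_sum, Fintype.card_fin]; omega
  have hcard2 : Fintype.card (Crd n ⊕ (Pt n ⊕ Pt n)) = 2 * n + 1 + 4 * (n + 1) := by
    simp only [Fintype.card_sum, Fintype.card_fin, Fintype.card_unit]; omega
  have H := exists_product_germ hF0 hind (leafIn_S s r h10 h1i h1F)
    (leafIn_R h0 hq h20 h2i h2F) (tsp_transversal h0 F hF0 hinc₁ hinc₂)
    (b₁ := b₁) (b₂ := b₂) (by rw [hcard1]; exact hb₁) (by rw [hcard1]; exact hb₂)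
    (by rw [hcard2]; exact hc) ι hι hsplit
  exact H

end Vale.Agent.P054.T2.H192
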