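import Vale.Agent.P054.T2.H192.KEdge
import Vale.Agent.P054.T2.H94.Side
import Vale.Agent.P054.T2.H930.GlueB1

set_option autoImplicit false
set_option linter.unusedSectionVars false

/-!
# P054 / T2, [KP-SIDE]: [K'] in the letters of `ZData` (930) and `Side` (428)
-/

open MvPolynomial Module

namespace Vale.Agent.P054.T2.H192

open H930 H686 SecC H94 H580

variable {n : ℕ}

/-- two algebra maps on `k[g, s, r]` agree if they agree on the variables -/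
theorem thS_rename_inl (s : ZZ n) (f : MvPolynomial (Crd n) ℝ) :
    thS s (rename Sum.inl f) = rename Sum.inl (pull s f) := by
  have : (thS s).comp (rename Sum.inl) = (rename Sum.inl).comp (pull s) := by
    apply algHom_ext
    intro x
    rw [AlgHom.comp_apply, AlgHom.comp_apply, rename_X, thS, aeval_X, Sum.elim_inl]
  exact congrArg (fun φ : MvPolynomial (Crd n) ℝ →ₐ[ℝ] MvPolynomial (Fin n ⊕ Pt n) ℝ => φ f) this

theorem thR_rename_inl (r : ZZ n) (f : MvPolynomial (Crd n) ℝ) :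
    thR r (rename Sum.inl f) = rename Sum.inl (pull r f) := by
  have : (thR r).comp (rename Sum.inl) = (rename Sum.inl).comp (pull r) := by
    apply algHom_ext
    intro x
    rw [AlgHom.comp_apply, AlgHom.comp_apply, rename_X, thR, aeval_X, Sum.elim_inl]
  exact congrArg (fun φ : MvPolynomial (Crd n) ℝ →ₐ[ℝ] MvPolynomial (Fin n ⊕ Pt n) ℝ => φ f) this

theorem thS_rename_j1 (s : ZZ n) (P : MvPolynomial (Crd n ⊕ Pt n) ℝ) :
    thS s (rename (j1 n) P) = rename Sum.inl (pull1 s P) := by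
  have : (thS s).comp (rename (j1 n)) = (rename Sum.inl).comp (pull1 s) := by
    apply algHom_ext
    intro x
    rcases x with x | y
    · rw [AlgHom.comp_apply, AlgHom.comp_apply, rename_X, thS, aeval_X, pull1, aeval_X]
      rfl
    · rw [AlgHom.comp_apply, AlgHom.comp_apply, rename_X, thS, aeval_X, pull1, aeval_X,
        Sum.elim_inr, rename_C]
      rfl
  exact congrArg (fun φ : MvPolynomial (Crd n ⊕ Pt n) ℝ →ₐ[ℝ]
    MvPolynomial (Fin n ⊕ Pt n) ℝ => φ P) this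

theorem thS_rename_j2 (s : ZZ n) (P : MvPolynomial (Crd n ⊕ Pt n) ℝ) :
    thS s (rename (j2 n) P) = pullh s P := by
  have : (thS s).comp (rename (j2 n)) = pullh s := by
    apply algHom_ext
    intro x
    rcases x with x | y
    · rw [AlgHom.comp_apply, rename_X, thS, aeval_X, pullh, aeval_X]
      rfl
    · rw [AlgHom.comp_apply, rename_X, thS, aeval_X, pullh, aeval_X]
      rfl
  exact congrArg (fun φ : MvPolynomial (Crd n ⊕ Pt n) ℝ →ₐ[ℝ]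
    MvPolynomial (Fin n ⊕ Pt n) ℝ => φ P) this

theorem thR_rename_j2 (r : ZZ n) (P : MvPolynomial (Crd n ⊕ Pt n) ℝ) :
    thR r (rename (j2 n) P) = rename Sum.inl (pull1 r P) := by
  have : (thR r).comp (rename (j2 n)) = (rename Sum.inl).comp (pull1 r) := by
    apply algHom_ext
    intro x
    rcases x with x | y
    · rw [AlgHom.comp_apply, AlgHom.comp_apply, rename_X, thR, aeval_X, pull1, aeval_X]
      rfl
    · rw [AlgHom.comp_apply, AlgHom.comp_apply, rename_X, thR, aeval_X, pull1, aeval_X,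
        Sum.elim_inr, rename_C]
      rfl
  exact congrArg (fun φ : MvPolynomial (Crd n ⊕ Pt n) ℝ →ₐ[ℝ]
    MvPolynomial (Fin n ⊕ Pt n) ℝ => φ P) this

theorem thR_rename_j1 (r : ZZ n) (P : MvPolynomial (Crd n ⊕ Pt n) ℝ) :
    thR r (rename (j1 n) P) = pullh r P := by
  have : (thR r).comp (rename (j1 n)) = pullh r := by
    apply algHom_ext
    intro x
    rcases x with x | y
    · rw [AlgHom.comp_apply, rename_X, thR, aeval_X, pullh, aeval_X]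
      rfl
    · rw [AlgHom.comp_apply, rename_X, thR, aeval_X, pullh, aeval_X]
      rfl
  exact congrArg (fun φ : MvPolynomial (Crd n ⊕ Pt n) ℝ →ₐ[ℝ]
    MvPolynomial (Fin n ⊕ Pt n) ℝ => φ P) this


section Core

variable {E0 E1 E2 : Finset (ZZ n × ZZ n)} {w : Crd n ⊕ Pt n → ℕ}
  {N c₀ c₁ c₂ σ₁ σ₂ v₁ v₂ Wt D Wt' D' : ℕ} {A A' : Finset (ZZ n × ZZ n)}

/-- the leaf germ lies in the hat-leaf germ -/
theorem leaf_le_P {σ v : ℕ} (S : Side n A Wt D σ v) (e : ZZ n × ZZ n) {G : MvPolynomial (Fin n) ℝ}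
    (hG : G ∈ germ (mu e.1 e.2) (S.f e.1)) : rename Sum.inl G ∈ S.P e := by
  have h := germ_block_le (A := Fin n) (B := ZI n) (hx e.1 e.2) (S.F e.1) (S.f e.1)
    (fun i => S.hleft e.1 i)
  exact h hG

/-- the system of `Z⁺` restricted to the hat leaf of `s` -/
theorem thS_F_mem (Z : ZData ℝ n E0 E1 E2 w N c₀ c₁ c₂ σ₁ σ₂) (S₁ : Side n A Wt D σ₁ v₂)
    (e : ZZ n × ZZ n)
    (hf : ∀ i, pull e.1 (Z.f i) ∈ germ (mu e.1 e.2) (S₁.f e.1))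
    (hh : ∀ i, pull1 e.1 (Z.h i) ∈ germ (mu e.1 e.2) (S₁.f e.1))
    (hh' : ∀ j, pullh e.1 (Z.h' j) ∈ S₁.P e) (i) :
    thS e.1 (Z.F i) ∈ germ (hpt e.1 e.2) (S₁.F e.1) := by
  rcases sysZ_cases Z.f Z.h Z.h' i with ⟨j, hj⟩ | ⟨j, hj⟩ | ⟨j, hj⟩
  · have h1 : Z.F i = rename Sum.inl (Z.f j) := hj
    rw [h1, thS_rename_inl]
    exact leaf_le_P S₁ e (hf j)
  · have h1 : Z.F i = rename (j1 n) (Z.h j) := hj
    rw [h1, thS_rename_j1]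
    exact leaf_le_P S₁ e (hh j)
  · have h1 : Z.F i = rename (j2 n) (Z.h' j) := hj
    rw [h1, thS_rename_j2]
    exact hh' j

/-- the system of `Z⁺` restricted to the hat leaf of `r` -/
theorem thR_F_mem (Z : ZData ℝ n E0 E1 E2 w N c₀ c₁ c₂ σ₁ σ₂) (S₂ : Side n A' Wt' D' σ₂ v₁)
    (e : ZZ n × ZZ n)
    (hf : ∀ i, pull e.2 (Z.f i) ∈ germ (mu e.2 e.1) (S₂.f e.2))
    (hh' : ∀ i, pull1 e.2 (Z.h' i) ∈ germ (mu e.2 e.1) (S₂.f e.2))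
    (hh : ∀ j, pullh e.2 (Z.h j) ∈ S₂.P e.swap) (i) :
    thR e.2 (Z.F i) ∈ germ (hpt e.2 e.1) (S₂.F e.2) := by
  rcases sysZ_cases Z.f Z.h Z.h' i with ⟨j, hj⟩ | ⟨j, hj⟩ | ⟨j, hj⟩
  · have h1 : Z.F i = rename Sum.inl (Z.f j) := hj
    rw [h1, thR_rename_inl]
    exact leaf_le_P S₂ e.swap (hf j)
  · have h1 : Z.F i = rename (j1 n) (Z.h j) := hj
    rw [h1, thR_rename_j1]
    exact hh j
  · have h1 : Z.F i = rename (j2 n) (Z.h' j) := hj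
    rw [h1, thR_rename_j2]
    exact leaf_le_P S₂ e.swap (hh' j)

/-- **[KP-SIDE], with the product germ** -/
theorem kp_core (Z : ZData ℝ n E0 E1 E2 w N c₀ c₁ c₂ σ₁ σ₂) (S₁ : Side n A Wt D σ₁ v₂)
    (S₂ : Side n A' Wt' D' σ₂ v₁) {e : ZZ n × ZZ n} (he : e ∈ E2) (heA : e ∈ A)
    (heA' : e.swap ∈ A') (hc₁ : c₁ + v₁ = 2 * (n + 1)) (hc₂ : c₂ + v₂ = 2 * (n + 1))
    (hc₀ : c₀ + (σ₁ + σ₂) = 2 * n + 1)
    (h1F : ∀ i, thS e.1 (Z.F i) ∈ germ (hpt e.1 e.2) (S₁.F e.1))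
    (h2F : ∀ i, thR e.2 (Z.F i) ∈ germ (hpt e.2 e.1) (S₂.F e.2)) :
    ∃ (φ : MvPolynomial (Crd n ⊕ (Pt n ⊕ Pt n)) ℝ →ₐ[ℝ]
        MvPowerSeries (Fin ((σ₂ + v₁) + (σ₁ + v₂))) ℝ)
      (x₂ : Fin (σ₂ + v₁) → Pt n) (x₁ : Fin (σ₁ + v₂) → Pt n),
      (∀ m G, φ G ∈ (ordI m : Ideal (MvPowerSeries (Fin ((σ₂ + v₁) + (σ₁ + v₂))) ℝ)) ↔
        G ∈ J (edgePt e.1 e.2) Z.F m) ∧
      (∀ G, MvPowerSeries.constantCoeff (φ G) = eval (edgePt e.1 e.2) G) ∧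
      (∀ l, φ (MvPolynomial.X (Sum.inr (Sum.inl (x₂ l))) - C (ptc e.1 (x₂ l))) =
        MvPowerSeries.X (Fin.castAdd (σ₁ + v₂) l)) ∧
      (∀ l, φ (MvPolynomial.X (Sum.inr (Sum.inr (x₁ l))) - C (ptc e.2 (x₁ l))) =
        MvPowerSeries.X (Fin.natAdd (σ₂ + v₁) l)) ∧
      (∀ y : Pt n, Dep (Set.range (Fin.castAdd (σ₁ + v₂)))
        (φ (MvPolynomial.X (Sum.inr (Sum.inl y))))) ∧
      (∀ y : Pt n, Dep (Set.range (Fin.natAdd (σ₂ + v₁)))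
        (φ (MvPolynomial.X (Sum.inr (Sum.inr y))))) ∧
      (∀ G : MvPolynomial (Pt n) ℝ, rename (Sum.inr ∘ Sum.inr) G ∈ germ (edgePt e.1 e.2) Z.F ↔
        rename Sum.inr G ∈ germ (hpt e.1 e.2) (S₁.F e.1)) ∧
      (∀ G : MvPolynomial (Pt n) ℝ, rename (Sum.inr ∘ Sum.inl) G ∈ germ (edgePt e.1 e.2) Z.F ↔
        rename Sum.inr G ∈ germ (hpt e.2 e.1) (S₂.F e.2)) := by
  have he0 := Z.mem0 he
  have hσ₁ := S₁.hσ
  have hσ₂ := S₂.hσ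
  have hcard : Fintype.card (Crd n ⊕ (Pt n ⊕ Pt n)) = 2 * n + 1 + 4 * (n + 1) := by
    simp only [Fintype.card_sum, Fintype.card_fin, Fintype.card_unit]; omega
  have hsum : ((σ₂ + v₁) + (σ₁ + v₂)) + (c₀ + (c₁ + c₂)) = 2 * n + 1 + 4 * (n + 1) := by omega
  refine product_at_edge (Z.adj e he0).1 (Z.adj e he0).2 Z.F (fun i => Z.F_zero he0 i) (Z.F_ind he)
    (S₁.F e.1) (fun i => S₁.hzero e heA i) (S₁.hind e heA) h1F
    (S₂.F e.2) (fun i => S₂.hzero e.swap heA' i) (S₂.hind e.swap heA') h2F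
    (fun i => Z.inc1 he i) (fun i => Z.inc2 he i)
    (by omega) (by omega) hsum
    (algebraMap (MvPowerSeries (Fin ((σ₂ + v₁) + (σ₁ + v₂))) ℝ)
      (FractionRing (MvPowerSeries (Fin ((σ₂ + v₁) + (σ₁ + v₂))) ℝ)))
    (IsFractionRing.injective _ _) ?_
  intro φ _ hJ a ha l
  exact Z.split he (by rw [hcard]; exact hsum) φ hJ a ha _ (IsFractionRing.injective _ _) l

/-- **[KP-SIDE]** -/
theorem kp_side (Z : ZData ℝ n E0 E1 E2 w N c₀ c₁ c₂ σ₁ σ₂) (S₁ : Side n A Wt D σ₁ v₂)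
    (S₂ : Side n A' Wt' D' σ₂ v₁) {e : ZZ n × ZZ n} (he : e ∈ E2) (heA : e ∈ A)
    (heA' : e.swap ∈ A') (hc₁ : c₁ + v₁ = 2 * (n + 1)) (hc₂ : c₂ + v₂ = 2 * (n + 1))
    (hc₀ : c₀ + (σ₁ + σ₂) = 2 * n + 1)
    (hf₁ : ∀ i, pull e.1 (Z.f i) ∈ germ (mu e.1 e.2) (S₁.f e.1))
    (hh₁ : ∀ i, pull1 e.1 (Z.h i) ∈ germ (mu e.1 e.2) (S₁.f e.1))
    (hhh₁ : ∀ j, pullh e.1 (Z.h' j) ∈ S₁.P e)
    (hf₂ : ∀ i, pull e.2 (Z.f i) ∈ germ (mu e.2 e.1) (S₂.f e.2))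
    (hh₂ : ∀ i, pull1 e.2 (Z.h' i) ∈ germ (mu e.2 e.1) (S₂.f e.2))
    (hhh₂ : ∀ j, pullh e.2 (Z.h j) ∈ S₂.P e.swap) :
    (∀ G : MvPolynomial (ZI n) ℝ, rename (fun x => Sum.inr (Sum.inr x)) G
      ∈ germ (edgePt e.1 e.2) Z.F ↔ G ∈ S₁.Pr e) ∧
    (∀ G : MvPolynomial (ZI n) ℝ, rename (fun x => Sum.inr (Sum.inl x)) G
      ∈ germ (edgePt e.1 e.2) Z.F ↔ G ∈ S₂.Pr e.swap) := by
  obtain ⟨φ, x₂, x₁, -, -, -, -, -, -, h1, h2⟩ := kp_core Z S₁ S₂ he heA heA' hc₁ hc₂ hc₀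
    (thS_F_mem Z S₁ e hf₁ hh₁ hhh₁) (thR_F_mem Z S₂ e hf₂ hh₂ hhh₂)
  exact ⟨fun G => h1 G, fun G => h2 G⟩

end Core

section Good

variable {E0 E1 E2 : Finset (ZZ n × ZZ n)} {w : Crd n ⊕ Pt n → ℕ}
  {N c₀ c₁ c₂ σ₁ σ₂ v₁ v₂ Wt D Wt' D' : ℕ} {A A' : Finset (ZZ n × ZZ n)}

theorem pull1_rename_inl (s : ZZ n) (G : MvPolynomial (Crd n) ℝ) :
    pull1 s (rename Sum.inl G) = pull s G := by
  have : (pull1 s).comp (rename Sum.inl) = pull s := by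
    apply algHom_ext
    intro x
    rw [AlgHom.comp_apply, rename_X]
    unfold pull1
    rw [aeval_X, Sum.elim_inl]
  exact congrArg (fun φ : MvPolynomial (Crd n) ℝ →ₐ[ℝ] MvPolynomial (Fin n) ℝ => φ G) this

/-- leaf GOOD gives all conditions of `kp_side` on the common equations: the side of `s` -/
theorem good_side₁ (Z : ZData ℝ n E0 E1 E2 w N c₀ c₁ c₂ σ₁ σ₂) {σ : ℕ}
    (f : ZZ n → Fin (n - σ) → MvPolynomial (Fin n) ℝ) {e : ZZ n × ZZ n}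
    (hgood : ∀ G : MvPolynomial (Fin n) ℝ, G.totalDegree ≤ N →
      (∀ e' ∈ E0, e'.1 = e.1 → eval (mu e'.1 e'.2) G = 0) → G ∈ germ (mu e.1 e.2) (f e.1)) :
    (∀ i, pull e.1 (Z.f i) ∈ germ (mu e.1 e.2) (f e.1)) ∧
    (∀ i, pull1 e.1 (Z.h i) ∈ germ (mu e.1 e.2) (f e.1)) := by
  refine ⟨fun i => ?_, fun i => ?_⟩
  · rw [← pull1_rename_inl]
    refine hgood _ (totalDegree_pull1_le e.1 w Z.wt_pos (Z.f_mem i)) fun e' he' h1 => ?_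
    rw [← h1, pull1_rename_inl, eval_pull]
    exact Z.f_zero i e' he'
  · refine hgood _ (totalDegree_pull1_le e.1 w Z.wt_pos (Z.h_mem i)) fun e' he' h1 => ?_
    rw [← h1, eval_pull1]
    exact Z.h_zero i e' he'

/-- leaf GOOD gives all conditions of `kp_side` on the common equations: the side of `r` -/
theorem good_side₂ (Z : ZData ℝ n E0 E1 E2 w N c₀ c₁ c₂ σ₁ σ₂) {σ : ℕ}
    (f : ZZ n → Fin (n - σ) → MvPolynomial (Fin n) ℝ) {e : ZZ n × ZZ n}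
    (hgood : ∀ G : MvPolynomial (Fin n) ℝ, G.totalDegree ≤ N →
      (∀ e' ∈ E0, e'.2 = e.2 → eval (mu e'.2 e'.1) G = 0) → G ∈ germ (mu e.2 e.1) (f e.2)) :
    (∀ i, pull e.2 (Z.f i) ∈ germ (mu e.2 e.1) (f e.2)) ∧
    (∀ i, pull1 e.2 (Z.h' i) ∈ germ (mu e.2 e.1) (f e.2)) := by
  refine ⟨fun i => ?_, fun i => ?_⟩
  · rw [← pull1_rename_inl]
    refine hgood _ (totalDegree_pull1_le e.2 w Z.wt_pos (Z.f_mem i)) fun e' he' h1 => ?_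
    rw [← h1, pull1_rename_inl, eval_pull]
    have h2 := Z.f_zero i e' he'
    rw [H686.meet_comm (Z.adj e' he').1 (Z.adj e' he').2] at h2
    exact h2
  · refine hgood _ (totalDegree_pull1_le e.2 w Z.wt_pos (Z.h'_mem i)) fun e' he' h1 => ?_
    rw [← h1, eval_pull1]
    exact Z.h'_zero i e' he'

/-- **[KP-SIDE] from leaf GOOD** (relative to any set `Eg ⊆ E0` of edges) and the hat-leaf
condition on the vertical equations -/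
theorem kp_side_good (Z : ZData ℝ n E0 E1 E2 w N c₀ c₁ c₂ σ₁ σ₂) (S₁ : Side n A Wt D σ₁ v₂)
    (S₂ : Side n A' Wt' D' σ₂ v₁) {e : ZZ n × ZZ n} (he : e ∈ E2) (heA : e ∈ A)
    (heA' : e.swap ∈ A') (hc₁ : c₁ + v₁ = 2 * (n + 1)) (hc₂ : c₂ + v₂ = 2 * (n + 1))
    (hc₀ : c₀ + (σ₁ + σ₂) = 2 * n + 1) {Eg Eg' : Finset (ZZ n × ZZ n)} (hEg : Eg ⊆ E0)
    (hEg' : ∀ x ∈ Eg', x.swap ∈ E0)
    (hgood₁ : ∀ G : MvPolynomial (Fin n) ℝ, G.totalDegree ≤ N →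
      (∀ e' ∈ Eg, e'.1 = e.1 → eval (mu e'.1 e'.2) G = 0) → G ∈ germ (mu e.1 e.2) (S₁.f e.1))
    (hgood₂ : ∀ G : MvPolynomial (Fin n) ℝ, G.totalDegree ≤ N →
      (∀ e' ∈ Eg', e'.1 = e.2 → eval (mu e'.1 e'.2) G = 0) → G ∈ germ (mu e.2 e.1) (S₂.f e.2))
    (hhh₁ : ∀ j, pullh e.1 (Z.h' j) ∈ S₁.P e)
    (hhh₂ : ∀ j, pullh e.2 (Z.h j) ∈ S₂.P e.swap) :
    (∀ G : MvPolynomial (ZI n) ℝ, rename (fun x => Sum.inr (Sum.inr x)) G
      ∈ germ (edgePt e.1 e.2) Z.F ↔ G ∈ S₁.Pr e) ∧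
    (∀ G : MvPolynomial (ZI n) ℝ, rename (fun x => Sum.inr (Sum.inl x)) G
      ∈ germ (edgePt e.1 e.2) Z.F ↔ G ∈ S₂.Pr e.swap) := by
  have g₁ := good_side₁ Z S₁.f (e := e) fun G hG h => hgood₁ G hG fun e' he' => h e' (hEg he')
  have g₂ := good_side₂ Z S₂.f (e := e) fun G hG h => hgood₂ G hG fun e' he' =>
    h e'.swap (hEg' e' he')
  exact kp_side Z S₁ S₂ he heA heA' hc₁ hc₂ hc₀ g₁.1 g₁.2 hhh₁ g₂.1 g₂.2 hhh₂

end Good

end Vale.Agent.P054.T2.H192
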