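import Vale.Agent.P054.T2.H192.Coord

set_option autoImplicit false
set_option linter.unusedSectionVars false

/-!
# P054 / T2, leaf [PRODC] + [K']: the germ of `Z⁺` is a product, in coordinates
-/

open MvPolynomial

namespace Vale.Agent.P054.T2.H192

open H930

variable {k : Type*} [Field k]

section Dep

variable {τ : Type*}

/-- `F` depends only on the variables in `T` -/
def Dep (T : Set τ) (F : MvPowerSeries τ k) : Prop :=
  ∀ d : τ →₀ ℕ, MvPowerSeries.coeff d F ≠ 0 → ∀ l, d l ≠ 0 → l ∈ T

theorem Dep.zero (T : Set τ) : Dep T (0 : MvPowerSeries τ k) := by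
  intro d hd; exact absurd (by simp) hd

theorem Dep.const (T : Set τ) (a : k) : Dep T (MvPowerSeries.C (σ := τ) a) := by
  classical
  intro d hd l hl
  rw [MvPowerSeries.coeff_C] at hd
  by_cases h : d = 0
  · rw [h] at hl; simp at hl
  · rw [if_neg h] at hd; exact absurd rfl hd

theorem Dep.add {T : Set τ} {F G : MvPowerSeries τ k} (hF : Dep T F) (hG : Dep T G) :
    Dep T (F + G) := by
  intro d hd l hl
  by_cases h : MvPowerSeries.coeff d F = 0
  · refine hG d ?_ l hl
    intro h'
    rw [map_add, h, h', add_zero] at hd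
    exact hd rfl
  · exact hF d h l hl

theorem Dep.mul {T : Set τ} {F G : MvPowerSeries τ k} (hF : Dep T F) (hG : Dep T G) :
    Dep T (F * G) := by
  classical
  intro d hd l hl
  rw [MvPowerSeries.coeff_mul] at hd
  obtain ⟨⟨a, b⟩, hab, hne⟩ := Finset.exists_ne_zero_of_sum_ne_zero hd
  rw [Finset.HasAntidiagonal.mem_antidiagonal] at hab
  have ha : MvPowerSeries.coeff a F ≠ 0 := fun h => hne (by simp [h])
  have hb : MvPowerSeries.coeff b G ≠ 0 := fun h => hne (by simp [h])
  have h1 : d l = a l + b l := by rw [← hab]; rfl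
  by_cases h2 : a l = 0
  · exact hG b hb l (by omega)
  · exact hF a ha l h2

/-- power series depending only on the variables in `T`, as a subalgebra -/
noncomputable def depAlg (k : Type*) [Field k] (T : Set τ) : Subalgebra k (MvPowerSeries τ k) where
  carrier := {F | Dep T F}
  mul_mem' := fun hF hG => Dep.mul hF hG
  add_mem' := fun hF hG => Dep.add hF hG
  algebraMap_mem' := fun a => by
    have : algebraMap k (MvPowerSeries τ k) a = MvPowerSeries.C a := by
      rw [MvPowerSeries.algebraMap_apply]; rfl
    rw [Set.mem_ofPred_eq, this]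
    exact Dep.const T a

theorem mem_depAlg {T : Set τ} {F : MvPowerSeries τ k} : F ∈ depAlg k T ↔ Dep T F := Iff.rfl

/-- characteristic zero: no derivative in the directions outside `T` -/
theorem dep_of_pderiv [CharZero k] {T : Set τ} {F : MvPowerSeries τ k}
    (h : ∀ l, l ∉ T → MvPowerSeries.pderiv k l F = 0) : Dep T F := by
  classical
  intro d hd l hl
  by_contra hT
  have h1 := congrArg (MvPowerSeries.coeff (d - Finsupp.single l 1)) (h l hT)
  have h2 : d - Finsupp.single l 1 + Finsupp.single l 1 = d :=
    tsub_add_cancel_of_le (by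
      rw [Finsupp.single_le_iff]; exact Nat.one_le_iff_ne_zero.mpr hl)
  rw [MvPowerSeries.coeff_pderiv, h2, map_zero] at h1
  rcases mul_eq_zero.1 h1 with h3 | h3
  · exact hd h3
  · exact absurd h3 (Nat.cast_add_one_ne_zero _)

theorem Dep.aeval {X : Type*} {T : Set τ} (φ : MvPolynomial X k →ₐ[k] MvPowerSeries τ k)
    {Y : Type*} (i : Y → X) (h : ∀ y, Dep T (φ (MvPolynomial.X (i y)))) (G : MvPolynomial Y k) :
    Dep T (φ (rename i G)) := by
  rw [← mem_depAlg]
  induction G using MvPolynomial.induction_on with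
  | C a =>
    rw [rename_C]
    have : φ (C a) = algebraMap k _ a := by
      rw [← MvPolynomial.algebraMap_eq, AlgHom.commutes]
    rw [this]
    exact (depAlg k T).algebraMap_mem a
  | add p q hp hq => rw [map_add, map_add]; exact (depAlg k T).add_mem hp hq
  | mul_X p y hp =>
    rw [map_mul, map_mul, rename_X]
    exact (depAlg k T).mul_mem hp (h y)

end Dep

/-- **[PRODC]** if the `l`-th local coordinate is (up to a constant) one of the series `S x` or
`R x`, and every derivation splits (930 `exists_split`), then the `S x` depend only on the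
coordinates of the first kind and the `R x` only on those of the second kind. -/
theorem prod_coord [CharZero k] {ς ς' : Type*} {e : ℕ} {L : Type*} [Field L]
    (ι : MvPowerSeries (Fin e) k →+* L) (hι : Function.Injective ι)
    (S : ς → MvPowerSeries (Fin e) k) (R : ς' → MvPowerSeries (Fin e) k)
    (κ : Fin e → ς ⊕ ς')
    (hκ : ∀ l, ∃ a : k, (Sum.elim S R (κ l) : MvPowerSeries (Fin e) k) =
      MvPowerSeries.C a + MvPowerSeries.X l)
    (hsplit : ∀ l, ∃ α : Fin e → L,
      (∀ x, ∑ m, α m * ι (MvPowerSeries.pderiv k m (R x)) = 0) ∧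
      (∀ x, ∑ m, α m * ι (MvPowerSeries.pderiv k m (S x)) = ι (MvPowerSeries.pderiv k l (S x)))) :
    (∀ x, Dep {l | (κ l).isLeft = true} (S x)) ∧
      (∀ x, Dep {l | (κ l).isRight = true} (R x)) := by
  classical
  have hder : ∀ l m, MvPowerSeries.pderiv k m (Sum.elim S R (κ l)) =
      if m = l then 1 else 0 := by
    intro l m
    obtain ⟨a, ha⟩ := hκ l
    rw [ha, map_add, MvPowerSeries.pderiv_C, zero_add]
    by_cases h : m = l
    · subst h; rw [if_pos rfl, MvPowerSeries.pderiv_X_self]
    · rw [if_neg h, MvPowerSeries.pderiv_X_of_ne (Ne.symm h)]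
  -- the value of `α` on the coordinates
  have hα : ∀ l, ∃ α : Fin e → L,
      (∀ x, ∑ m, α m * ι (MvPowerSeries.pderiv k m (R x)) = 0) ∧
      (∀ x, ∑ m, α m * ι (MvPowerSeries.pderiv k m (S x)) =
        ι (MvPowerSeries.pderiv k l (S x))) ∧
      (∀ m, (κ m).isRight = true → α m = 0) ∧
      (∀ m, (κ m).isLeft = true → α m = if m = l then 1 else 0) := by
    intro l
    obtain ⟨α, h1, h2⟩ := hsplit l
    refine ⟨α, h1, h2, fun m hm => ?_, fun m hm => ?_⟩
    · obtain ⟨x, hx⟩ := Sum.isRight_iff.1 hm
      have h3 := h1 x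
      have h4 : ∀ m', MvPowerSeries.pderiv k m' (R x) = if m' = m then 1 else 0 := by
        intro m'
        have := hder m m'
        rw [hx] at this
        exact this
      simp only [h4] at h3
      rw [Finset.sum_eq_single m (fun m' _ hm' => by rw [if_neg hm', map_zero, mul_zero])
        (fun h => absurd (Finset.mem_univ _) h), if_pos rfl, map_one, mul_one] at h3
      exact h3
    · obtain ⟨x, hx⟩ := Sum.isLeft_iff.1 hm
      have h3 := h2 x
      have h4 : ∀ m', MvPowerSeries.pderiv k m' (S x) = if m' = m then 1 else 0 := by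
        intro m'
        have := hder m m'
        rw [hx] at this
        exact this
      simp only [h4] at h3
      rw [Finset.sum_eq_single m (fun m' _ hm' => by rw [if_neg hm', map_zero, mul_zero])
        (fun h => absurd (Finset.mem_univ _) h), if_pos rfl, map_one, mul_one] at h3
      rw [h3]
      by_cases hlm : l = m
      · subst hlm; simp
      · rw [if_neg hlm, if_neg (Ne.symm hlm), map_zero]
  have hlr : ∀ m : Fin e, (κ m).isLeft = true ∨ (κ m).isRight = true := by
    intro m
    rcases κ m with x | x <;> simp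
  constructor
  · intro x
    refine dep_of_pderiv fun l hl => ?_
    rw [Set.mem_ofPred_eq] at hl
    have hr : (κ l).isRight = true := (hlr l).resolve_left hl
    obtain ⟨α, h1, h2, h3, h4⟩ := hα l
    have h5 : ∀ m, α m = 0 := by
      intro m
      rcases hlr m with h | h
      · rw [h4 m h, if_neg]
        rintro rfl
        exact hl h
      · exact h3 m h
    have h6 := h2 x
    rw [Finset.sum_eq_zero (fun m _ => by rw [h5 m, zero_mul])] at h6
    apply hι
    rw [← h6, map_zero]
  · intro x
    refine dep_of_pderiv fun l hl => ?_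
    rw [Set.mem_ofPred_eq] at hl
    have hlft : (κ l).isLeft = true := (hlr l).resolve_right hl
    obtain ⟨α, h1, h2, h3, h4⟩ := hα l
    have h5 : ∀ m, α m = if m = l then 1 else 0 := by
      intro m
      rcases hlr m with h | h
      · exact h4 m h
      · rw [h3 m h, if_neg]
        rintro rfl
        exact hl h
    have h6 := h1 x
    rw [Finset.sum_eq_single l (fun m _ hm => by rw [h5 m, if_neg hm, zero_mul])
      (fun h => absurd (Finset.mem_univ _) h), h5 l, if_pos rfl, one_mul] at h6
    apply hι
    rw [h6, map_zero]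

/-- a substitution `θ` compatible with the base points, whose values on the equations vanish on the
second germ, maps the first germ ideal into the second one -/
theorem germ_map_le {X X' : Type*} [Fintype X] [DecidableEq X] [Fintype X'] [DecidableEq X']
    {c c' : ℕ} {p : X → k} {F : Fin c → MvPolynomial X k} {p' : X' → k}
    {F' : Fin c' → MvPolynomial X' k} (θ : MvPolynomial X k →ₐ[k] MvPolynomial X' k)
    (hθp : ∀ G, eval p' (θ G) = eval p G) (hθF : ∀ i, θ (F i) ∈ germ p' F') :
    (∀ n, ∀ G ∈ J p F n, θ G ∈ J p' F' n) ∧ ∀ G ∈ germ p F, θ G ∈ germ p' F' := by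
  have h1 : ∀ n, J p F n ≤ (J p' F' n).comap θ.toRingHom := by
    intro n
    unfold J
    refine sup_le ?_ ?_
    · rw [Ideal.span_le]
      rintro _ ⟨i, rfl⟩
      exact germ_le_J p' F' n (hθF i)
    · have h2 : mx p ≤ (mx p').comap θ.toRingHom := by
        intro G hG
        rw [Ideal.mem_comap, mem_mx]
        rw [mem_mx] at hG
        exact (hθp G).trans hG
      have h3 : (mx p) ^ n ≤ ((mx p') ^ n).comap θ.toRingHom :=
        (Ideal.pow_right_mono h2 n).trans (Ideal.le_comap_pow _ n)
      exact h3.trans (Ideal.comap_mono le_sup_right)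
  refine ⟨fun n G hG => h1 n hG, fun G hG => ?_⟩
  rw [mem_germ] at hG ⊢
  exact fun n => h1 n (hG n)

/-- **[K']** the ideals of the `Y`-variables (`Y` = coordinates of `r`) in the germ of `Z⁺` and in
the hat-leaf germ are the same. -/
theorem kprime {X X' Y τ τ' : Type*} [Fintype X] [DecidableEq X] [Fintype X'] [DecidableEq X']
    {c c' : ℕ} (p : X → k) (F : Fin c → MvPolynomial X k)
    (φ : MvPolynomial X k →ₐ[k] MvPowerSeries τ k)
    (hφJ : ∀ n G, φ G ∈ (ordI n : Ideal (MvPowerSeries τ k)) ↔ G ∈ J p F n)
    (ξ : τ → X)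
    (hφA : ∀ A : MvPolynomial τ k,
      φ (aeval (fun l => MvPolynomial.X (ξ l) - C (p (ξ l))) A) = (A : MvPowerSeries τ k))
    (hφR : ∀ n G, ∃ A : MvPolynomial τ k, (∀ d ∈ A.support, d.degree < n) ∧
      G - aeval (fun l => MvPolynomial.X (ξ l) - C (p (ξ l))) A ∈ J p F n)
    (iY : Y → X) (iY' : Y → X') (j : τ' → τ) (hj : Function.Injective j)
    (hdep : ∀ y, Dep (Set.range j) (φ (MvPolynomial.X (iY y))))
    (η : τ' → Y) (hη : ∀ l, ξ (j l) = iY (η l))
    (p' : X' → k) (F' : Fin c' → MvPolynomial X' k)
    (φ' : MvPolynomial X' k →ₐ[k] MvPowerSeries τ' k)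
    (hφ'J : ∀ n G, φ' G ∈ (ordI n : Ideal (MvPowerSeries τ' k)) ↔ G ∈ J p' F' n)
    (hφ'A : ∀ A : MvPolynomial τ' k,
      φ' (aeval (fun l => MvPolynomial.X (iY' (η l)) - C (p' (iY' (η l)))) A) =
        (A : MvPowerSeries τ' k))
    (θ : MvPolynomial X k →ₐ[k] MvPolynomial X' k)
    (hθY : ∀ y, θ (MvPolynomial.X (iY y)) = MvPolynomial.X (iY' y))
    (hθp : ∀ G, eval p' (θ G) = eval p G) (hθF : ∀ i, θ (F i) ∈ germ p' F')
    (G : MvPolynomial Y k) :
    rename iY G ∈ germ p F ↔ rename iY' G ∈ germ p' F' := by
  classical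
  obtain ⟨hJ, hg⟩ := germ_map_le θ hθp hθF
  have hpp : ∀ y, p' (iY' y) = p (iY y) := by
    intro y
    have := hθp (MvPolynomial.X (iY y))
    rwa [hθY, eval_X, eval_X] at this
  have hθG : θ (rename iY G) = rename iY' G := by
    have h1 : θ.comp (rename iY) = rename iY' := by
      apply MvPolynomial.algHom_ext
      intro y
      rw [AlgHom.comp_apply, rename_X, rename_X, hθY]
    rw [← h1]; rfl
  constructor
  · intro h
    rw [← hθG]
    exact hg _ h
  · intro h
    have h0 : φ' (rename iY' G) = 0 := (ker_eq_germ hφ'J _).2 h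
    rw [mem_germ]
    intro n
    obtain ⟨A, hA, hA'⟩ := hφR n (rename iY G)
    -- `A` agrees with the series of `G` below degree `n`
    have h1 := (hφJ n _).2 hA'
    rw [map_sub, hφA] at h1
    have hdG : Dep (Set.range j) (φ (rename iY G)) := Dep.aeval φ iY hdep G
    have hcoef : ∀ d : τ →₀ ℕ, d.degree < n →
        MvPowerSeries.coeff d (φ (rename iY G)) = coeff d A := by
      intro d hd
      have := mem_ordI'.1 h1 d hd
      rw [map_sub, MvPolynomial.coeff_coe, sub_eq_zero] at this
      exact this
    have hvars : (A.vars : Set τ) ⊆ Set.range j := by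
      intro l hl
      obtain ⟨d, hd, hdl⟩ := (MvPolynomial.mem_vars_iff_mem_support l).1 (Finset.mem_coe.1 hl)
      refine hdG d ?_ l (Finsupp.mem_support_iff.1 hdl)
      rw [hcoef d (hA d hd)]
      exact MvPolynomial.mem_support_iff.1 hd
    obtain ⟨B, hB⟩ := exists_rename_eq_of_vars_subset_range A j hj hvars
    -- transport by `θ`
    have h2 := hJ n _ hA'
    have h3 : θ (rename iY G - aeval (fun l => MvPolynomial.X (ξ l) - C (p (ξ l))) A) =
        rename iY' G - aeval (fun l => MvPolynomial.X (iY' (η l)) - C (p' (iY' (η l)))) B := by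
      rw [map_sub, hθG, ← hB, aeval_rename]
      congr 1
      have h4 : θ.comp (aeval ((fun l => MvPolynomial.X (ξ l) - C (p (ξ l))) ∘ j) :
          MvPolynomial τ' k →ₐ[k] MvPolynomial X k) =
          aeval (fun l => MvPolynomial.X (iY' (η l)) - C (p' (iY' (η l)))) := by
        apply MvPolynomial.algHom_ext
        intro l
        rw [AlgHom.comp_apply, aeval_X, aeval_X, Function.comp_apply, map_sub, hη, hθY, hpp]
        congr 1
        rw [← MvPolynomial.algebraMap_eq, ← MvPolynomial.algebraMap_eq, AlgHom.commutes]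
      rw [← h4]; rfl
    rw [h3, ← hφ'J, map_sub, h0, hφ'A, zero_sub] at h2
    have h5 : (B : MvPowerSeries τ' k) ∈ (ordI n : Ideal (MvPowerSeries τ' k)) := by
      have := Ideal.neg_mem_iff _ |>.1 h2
      exact this
    have hB0 : B = 0 := by
      ext d
      rw [coeff_zero]
      by_cases hd : d.degree < n
      · have := mem_ordI'.1 h5 d hd
        rwa [MvPolynomial.coeff_coe] at this
      · by_contra hne
        have h6 : coeff (Finsupp.mapDomain j d) A ≠ 0 := by
          rw [← hB, coeff_rename_mapDomain j hj]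
          exact hne
        have h7 := hA _ (MvPolynomial.mem_support_iff.2 h6)
        have h8 : (Finsupp.mapDomain j d).degree = d.degree := Finsupp.degree_mapDomain j d
        omega
    have hA0 : A = 0 := by rw [← hB, hB0, map_zero]
    rw [hA0, map_zero, sub_zero] at hA'
    exact hA'

end Vale.Agent.P054.T2.H192
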