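import Vale.Agent.P054.T2.H192.ProdC
import Vale.Agent.P054.T2.H930.Tan2

set_option autoImplicit false
set_option linter.unusedSectionVars false

/-!
# P054 / T2, leaf [SEL]: adapted local coordinates of `Z⁺` (taken from the `s`- and the
`r`-variables), and [K'] for both sides.
-/

open MvPolynomial Module

namespace Vale.Agent.P054.T2.H192

open H930

variable {k : Type*} [Field k]

/-- a subspace of `k^X` has `finrank` many coordinates which separate its points -/
theorem exists_coords {X : Type*} [Fintype X] (U : Submodule k (X → k)) :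
    ∃ x : Fin (finrank k U) → X, ∀ w ∈ U, (∀ l, w (x l) = 0) → w = 0 := by
  classical
  let b := Module.finBasis k U
  let A : Matrix (Fin (finrank k U)) X k := Matrix.of fun i x => (b i : X → k) x
  have hA : A.rank = finrank k U := by
    have h1 : LinearIndependent k A.row := by
      have h2 : LinearIndependent k (fun i => ((b i : U) : X → k)) :=
        b.linearIndependent.map' U.subtype U.ker_subtype
      exact h2
    rw [h1.rank_matrix, Fintype.card_fin]
  obtain ⟨g, hg⟩ := exists_sel (L := k) A.col (finrank k U) (by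
    rw [← Matrix.rank_eq_finrank_span_cols, hA])
  have hg' : LinearIndependent k (A.submatrix id g).col := hg
  have h3 : IsUnit (A.submatrix id g) := by
    rw [← Matrix.linearIndependent_cols_iff_isUnit]
    exact hg'
  have h4 : (A.submatrix id g).det ≠ 0 := ((Matrix.isUnit_iff_isUnit_det _).1 h3).ne_zero
  refine ⟨g, fun w hw hl => ?_⟩
  have h5 : w = ∑ i, b.repr ⟨w, hw⟩ i • (b i : X → k) := by
    have := congrArg (Subtype.val) (b.sum_repr ⟨w, hw⟩)
    rw [Submodule.coe_sum] at this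
    simpa using this.symm
  have h6 : Matrix.vecMul (fun i => b.repr ⟨w, hw⟩ i) (A.submatrix id g) = 0 := by
    funext l
    have h7 := hl l
    rw [h5, Finset.sum_apply] at h7
    exact h7
  have h8 := Matrix.eq_zero_of_vecMul_eq_zero h4 h6
  rw [h5]
  exact Finset.sum_eq_zero fun i _ => by rw [show b.repr ⟨w, hw⟩ i = 0 from congrFun h8 i, zero_smul]

/-- a square system of covectors with trivial common kernel is independent -/
theorem linInd_of_ker {ι X : Type*} [Fintype ι] [Fintype X] (M : ι → X → k)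
    (hcard : Fintype.card ι = Fintype.card X)
    (h : ∀ w : X → k, (∀ i, ∑ x, M i x * w x = 0) → w = 0) : LinearIndependent k M := by
  classical
  have h1 : Function.Injective (Matrix.of M).mulVecLin := by
    rw [← LinearMap.ker_eq_bot, LinearMap.ker_eq_bot']
    intro w hw
    exact h w fun i => congrFun hw i
  have h2 : (Matrix.of M).rank = Fintype.card X := by
    rw [Matrix.rank, LinearMap.finrank_range_of_inj h1, Module.finrank_fintype_fun_eq_card]
  have h3 : LinearIndependent k (Matrix.of M).row := by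
    rw [linearIndependent_iff_card_eq_finrank_span, Set.finrank,
      ← Matrix.rank_eq_finrank_span_row, h2, hcard]
  exact h3

/-- differential at `p'` of the map of points given by the substitution `θ` -/
noncomputable def dth {Z Z' : Type*} [Fintype Z'] (θ : MvPolynomial Z k →ₐ[k] MvPolynomial Z' k)
    (p' : Z' → k) : (Z' → k) →ₗ[k] (Z → k) where
  toFun w x := ∑ y, w y * eval p' (pderiv y (θ (X x)))
  map_add' w w' := by
    funext x
    simp only [Pi.add_apply, add_mul, Finset.sum_add_distrib]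
  map_smul' c w := by
    funext x
    simp only [Pi.smul_apply, smul_eq_mul, RingHom.id_apply, Finset.mul_sum, mul_assoc]

theorem dth_apply {Z Z' : Type*} [Fintype Z'] (θ : MvPolynomial Z k →ₐ[k] MvPolynomial Z' k)
    (p' w : Z' → k) (x : Z) : dth θ p' w x = ∑ y, w y * eval p' (pderiv y (θ (X x))) := rfl

/-- chain rule -/
theorem dth_pair {Z Z' : Type*} [Fintype Z] [DecidableEq Z] [Fintype Z'] [DecidableEq Z']
    (θ : MvPolynomial Z k →ₐ[k] MvPolynomial Z' k) {p : Z → k} {p' : Z' → k}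
    (hθp : ∀ G, eval p' (θ G) = eval p G) (G : MvPolynomial Z k) (w : Z' → k) :
    ∑ x, grad p G x * dth θ p' w x = ∑ y, grad p' (θ G) y * w y := by
  have h1 : ∀ y, grad p' (θ G) y = ∑ x, grad p G x * eval p' (pderiv y (θ (X x))) := by
    intro y
    unfold grad
    rw [chain_rule (pderiv y) θ G, map_sum]
    exact Finset.sum_congr rfl fun x _ => by rw [map_mul, hθp]
  simp only [dth_apply, h1, Finset.mul_sum, Finset.sum_mul]
  rw [Finset.sum_comm]
  exact Finset.sum_congr rfl fun y _ => Finset.sum_congr rfl fun x _ => by ring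

/-- tangent space of a system at a point -/
noncomputable def tsp {Z : Type*} [Fintype Z] {c : ℕ} (p : Z → k) (F : Fin c → MvPolynomial Z k) :
    Submodule k (Z → k) where
  carrier := {w | ∀ i, ∑ x, grad p (F i) x * w x = 0}
  add_mem' := by
    intro a b ha hb i
    simp only [Pi.add_apply, mul_add, Finset.sum_add_distrib]
    rw [ha i, hb i, add_zero]
  zero_mem' := by intro i; simp
  smul_mem' := by
    intro a w hw i
    simp only [Pi.smul_apply, smul_eq_mul]
    have : ∑ x, grad p (F i) x * (a * w x) = a * ∑ x, grad p (F i) x * w x := by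
      rw [Finset.mul_sum]; exact Finset.sum_congr rfl fun x _ => by ring
    rw [this, hw i, mul_zero]

theorem mem_tsp {Z : Type*} [Fintype Z] {c : ℕ} {p : Z → k} {F : Fin c → MvPolynomial Z k}
    {w : Z → k} : w ∈ tsp p F ↔ ∀ i, ∑ x, grad p (F i) x * w x = 0 := Iff.rfl

theorem finrank_tsp {Z : Type*} [Fintype Z] {c : ℕ} {p : Z → k} {F : Fin c → MvPolynomial Z k}
    (hind : LinearIndependent k (fun i => grad p (F i))) :
    finrank k (tsp p F) + c = Fintype.card Z := by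
  have h1 := LinearMap.finrank_range_add_finrank_ker
    (Matrix.of (fun i => grad p (F i))).mulVecLin
  rw [Module.finrank_fintype_fun_eq_card] at h1
  have h2 : finrank k (LinearMap.range (Matrix.of (fun i => grad p (F i))).mulVecLin) = c := by
    have h3 : LinearIndependent k (Matrix.of (fun i => grad p (F i))).row := hind
    have h4 := h3.rank_matrix
    rw [Fintype.card_fin] at h4
    exact h4
  have h3 : LinearMap.ker (Matrix.of (fun i => grad p (F i))).mulVecLin = tsp p F := by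
    ext w
    rw [LinearMap.mem_ker, mem_tsp]
    constructor
    · intro h i
      exact congrFun h i
    · intro h
      funext i
      exact h i
  rw [h2, h3] at h1
  omega

/-- covectors of the elements of the germ ideal kill the tangent space -/
theorem tsp_germ {Z : Type*} [Fintype Z] [DecidableEq Z] {c : ℕ} {p : Z → k}
    {F : Fin c → MvPolynomial Z k} (hF0 : ∀ i, eval p (F i) = 0) {G : MvPolynomial Z k}
    (hG : G ∈ germ p F) {w : Z → k} (hw : w ∈ tsp p F) : ∑ x, grad p G x * w x = 0 := by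
  have h1 := grad_mem_of_mem_germ hF0 hG
  have h2 : Submodule.span k (Set.range (fun i => grad p (F i))) ≤
      LinearMap.ker (Fintype.linearCombination k w) := by
    rw [Submodule.span_le]
    rintro _ ⟨i, rfl⟩
    change Fintype.linearCombination k w (grad p (F i)) = 0
    rw [Fintype.linearCombination_apply]
    simpa using hw i
  have h3 : Fintype.linearCombination k w (grad p G) = 0 := h2 h1
  rw [Fintype.linearCombination_apply] at h3
  simpa using h3

theorem dth_mem_tsp {Z Z' : Type*} [Fintype Z] [DecidableEq Z] [Fintype Z'] [DecidableEq Z']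
    {c c' : ℕ} (θ : MvPolynomial Z k →ₐ[k] MvPolynomial Z' k) {p : Z → k} {p' : Z' → k}
    (hθp : ∀ G, eval p' (θ G) = eval p G) {F : Fin c → MvPolynomial Z k}
    {F' : Fin c' → MvPolynomial Z' k} (hF0' : ∀ i, eval p' (F' i) = 0)
    (hθF : ∀ i, θ (F i) ∈ germ p' F') {w : Z' → k} (hw : w ∈ tsp p' F') :
    dth θ p' w ∈ tsp p F := by
  intro i
  rw [dth_pair θ hθp]
  exact tsp_germ hF0' (hθF i) hw

theorem Dep.mono {τ : Type*} {T T' : Set τ} (h : T ⊆ T') {F : MvPowerSeries τ k}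
    (hF : Dep T F) : Dep T' F := fun d hd l hl => h (hF d hd l hl)

/-- the data of one hat leaf inside the germ of `Z⁺`: variables `α ⊕ Y` (`Y` = the moving point),
`iY : Y → X` the variables of the moving point in `X`, `iS : S → X` those of the fixed point. -/
structure LeafIn {Z S Y α : Type*} [Fintype Z] [DecidableEq Z] [Fintype Y] [DecidableEq Y]
    [Fintype α] [DecidableEq α] {c c' : ℕ} (p : Z → k) (F : Fin c → MvPolynomial Z k)
    (iS : S → Z) (iY : Y → Z) (p' : α ⊕ Y → k) (F' : Fin c' → MvPolynomial (α ⊕ Y) k)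
    (θ : MvPolynomial Z k →ₐ[k] MvPolynomial (α ⊕ Y) k) : Prop where
  hF0 : ∀ i, eval p' (F' i) = 0
  hind : LinearIndependent k (fun i => grad p' (F' i))
  hθp : ∀ G, eval p' (θ G) = eval p G
  hθF : ∀ i, θ (F i) ∈ germ p' F'
  hθY : ∀ y, θ (X (iY y)) = X (Sum.inr y)
  hθS : ∀ s, ∃ a : k, θ (X (iS s)) = C a
  hinj : ∀ w, dth θ p' w = 0 → w = 0

section LeafIn

variable {Z S Y α : Type*} [Fintype Z] [DecidableEq Z] [Fintype Y] [DecidableEq Y]
    [Fintype α] [DecidableEq α] {c c' : ℕ} {p : Z → k} {F : Fin c → MvPolynomial Z k}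
    {iS : S → Z} {iY : Y → Z} {p' : α ⊕ Y → k} {F' : Fin c' → MvPolynomial (α ⊕ Y) k}
    {θ : MvPolynomial Z k →ₐ[k] MvPolynomial (α ⊕ Y) k}

theorem LeafIn.dth_Y (H : LeafIn p F iS iY p' F' θ) (w : α ⊕ Y → k) (y : Y) :
    dth θ p' w (iY y) = w (Sum.inr y) := by
  rw [dth_apply, H.hθY]
  rw [Finset.sum_eq_single (Sum.inr y)]
  · rw [pderiv_X_self, map_one, mul_one]
  · intro z _ hz
    rw [pderiv_X_of_ne (Ne.symm hz), map_zero, mul_zero]
  · intro h; exact absurd (Finset.mem_univ _) h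

theorem LeafIn.dth_S (H : LeafIn p F iS iY p' F' θ) (w : α ⊕ Y → k) (s : S) :
    dth θ p' w (iS s) = 0 := by
  obtain ⟨a, ha⟩ := H.hθS s
  rw [dth_apply, ha]
  exact Finset.sum_eq_zero fun y _ => by rw [pderiv_C, map_zero, mul_zero]

/-- the moving point has enough coordinates on the hat leaf -/
theorem LeafIn.exists_coords (H : LeafIn p F iS iY p' F' θ)
    (htr : ∀ w ∈ tsp p F, (∀ s, w (iS s) = 0) → (∀ y, w (iY y) = 0) → w = 0) :
    ∃ x : Fin (finrank k (tsp p' F')) → Y,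
      ∀ w ∈ tsp p' F', (∀ l, w (Sum.inr (x l)) = 0) → w = 0 := by
  let R : (α ⊕ Y → k) →ₗ[k] (Y → k) := LinearMap.funLeft k k Sum.inr
  have hR : ∀ w y, R w y = w (Sum.inr y) := fun w y => rfl
  have hinj : ∀ w ∈ tsp p' F', R w = 0 → w = 0 := by
    intro w hw h0
    apply H.hinj
    refine htr _ (dth_mem_tsp θ H.hθp H.hF0 H.hθF hw) (fun s => H.dth_S w s) (fun y => ?_)
    rw [H.dth_Y]
    exact congrFun h0 y
  let U : Submodule k (Y → k) := LinearMap.range (R.domRestrict (tsp p' F'))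
  have hU : finrank k U = finrank k (tsp p' F') := by
    refine LinearMap.finrank_range_of_inj ?_
    rw [← LinearMap.ker_eq_bot, LinearMap.ker_eq_bot']
    intro w hw
    exact Subtype.ext (hinj w.1 w.2 hw)
  obtain ⟨x, hx⟩ := H192.exists_coords U
  refine ⟨fun l => x (Fin.cast hU.symm l), fun w hw hl => hinj w hw ?_⟩
  refine hx (R w) ⟨⟨w, hw⟩, rfl⟩ fun l => ?_
  have := hl (Fin.cast hU l)
  rw [hR]
  simpa using this

end LeafIn

theorem single_sum {V : Type*} [Fintype V] [DecidableEq V] (x : V) (w : V → k) :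
    ∑ y, (Pi.single x (1 : k) : V → k) y * w y = w x := by
  rw [Finset.sum_eq_single x (fun y _ hy => by rw [Pi.single_eq_of_ne hy, zero_mul])
    (fun h => absurd (Finset.mem_univ _) h), Pi.single_eq_same, one_mul]

/-- **[SEL]** adapted coordinates: `b₂` of the variables of `s` and `b₁` of the variables of `r` are
local coordinates of `Z⁺`; the latter are local coordinates of the hat leaf of `s`, the former of
the hat leaf of `r`. -/
theorem exists_adapted {Z S Y α β : Type*} [Fintype Z] [DecidableEq Z] [Fintype S] [DecidableEq S]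
    [Fintype Y] [DecidableEq Y] [Fintype α] [DecidableEq α] [Fintype β] [DecidableEq β]
    {c c₁ c₂ : ℕ} {p : Z → k} {F : Fin c → MvPolynomial Z k}
    (hind : LinearIndependent k (fun i => grad p (F i)))
    {iS : S → Z} {iY : Y → Z} {p₁ : α ⊕ Y → k} {F₁ : Fin c₁ → MvPolynomial (α ⊕ Y) k}
    {θ₁ : MvPolynomial Z k →ₐ[k] MvPolynomial (α ⊕ Y) k} (H₁ : LeafIn p F iS iY p₁ F₁ θ₁)
    {p₂ : β ⊕ S → k} {F₂ : Fin c₂ → MvPolynomial (β ⊕ S) k}
    {θ₂ : MvPolynomial Z k →ₐ[k] MvPolynomial (β ⊕ S) k} (H₂ : LeafIn p F iY iS p₂ F₂ θ₂)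
    (htr : ∀ w ∈ tsp p F, (∀ s, w (iS s) = 0) → (∀ y, w (iY y) = 0) → w = 0)
    {b₁ b₂ : ℕ} (hb₁ : b₁ + c₁ = Fintype.card (α ⊕ Y)) (hb₂ : b₂ + c₂ = Fintype.card (β ⊕ S))
    (hc : (b₂ + b₁) + c = Fintype.card Z) :
    ∃ (x₂ : Fin b₂ → S) (x₁ : Fin b₁ → Y),
      LinearIndependent k (Sum.elim (fun l => Pi.single (Sum.inr (x₁ l)) (1 : k))
        (fun i => grad p₁ (F₁ i)) : Fin b₁ ⊕ Fin c₁ → α ⊕ Y → k) ∧
      LinearIndependent k (Sum.elim (fun l => Pi.single (Sum.inr (x₂ l)) (1 : k))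
        (fun i => grad p₂ (F₂ i)) : Fin b₂ ⊕ Fin c₂ → β ⊕ S → k) ∧
      LinearIndependent k (Sum.elim
        (fun l => Pi.single (Fin.addCases (fun l => iS (x₂ l)) (fun l => iY (x₁ l)) l : Z) (1 : k))
        (fun i => grad p (F i)) : Fin (b₂ + b₁) ⊕ Fin c → Z → k) := by
  classical
  have hf₁ : finrank k (tsp p₁ F₁) = b₁ := by
    have := finrank_tsp H₁.hind; omega
  have hf₂ : finrank k (tsp p₂ F₂) = b₂ := by
    have := finrank_tsp H₂.hind; omega
  have hf : finrank k (tsp p F) = b₂ + b₁ := by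
    have := finrank_tsp hind; omega
  obtain ⟨x₁, hx₁⟩ := H₁.exists_coords htr
  obtain ⟨x₂, hx₂⟩ := H₂.exists_coords (fun w hw h1 h2 => htr w hw h2 h1)
  -- the decomposition of the tangent space
  have hdec : ∀ w ∈ tsp p F, ∃ w₂ ∈ tsp p₂ F₂, ∃ w₁ ∈ tsp p₁ F₁,
      w = dth θ₂ p₂ w₂ + dth θ₁ p₁ w₁ := by
    let A₁ : Submodule k (Z → k) := (tsp p₁ F₁).map (dth θ₁ p₁)
    let A₂ : Submodule k (Z → k) := (tsp p₂ F₂).map (dth θ₂ p₂)
    have hA₁ : finrank k A₁ = b₁ := by
      rw [← hf₁]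
      exact (Submodule.equivMapOfInjective (dth θ₁ p₁) (by
        rw [← LinearMap.ker_eq_bot, LinearMap.ker_eq_bot']
        exact H₁.hinj) (tsp p₁ F₁)).finrank_eq.symm
    have hA₂ : finrank k A₂ = b₂ := by
      rw [← hf₂]
      exact (Submodule.equivMapOfInjective (dth θ₂ p₂) (by
        rw [← LinearMap.ker_eq_bot, LinearMap.ker_eq_bot']
        exact H₂.hinj) (tsp p₂ F₂)).finrank_eq.symm
    have hle₁ : A₁ ≤ tsp p F := by
      rintro _ ⟨w, hw, rfl⟩
      exact dth_mem_tsp θ₁ H₁.hθp H₁.hF0 H₁.hθF hw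
    have hle₂ : A₂ ≤ tsp p F := by
      rintro _ ⟨w, hw, rfl⟩
      exact dth_mem_tsp θ₂ H₂.hθp H₂.hF0 H₂.hθF hw
    have hinf : A₂ ⊓ A₁ = ⊥ := by
      rw [eq_bot_iff]
      rintro w ⟨hw2, hw1⟩
      obtain ⟨w₂, hw₂, rfl⟩ := hw2
      obtain ⟨w₁, hw₁, e⟩ := hw1
      refine (Submodule.mem_bot k).2 (htr _ (hle₂ ⟨w₂, hw₂, rfl⟩) (fun s => ?_) fun y => ?_)
      · rw [← e]; exact H₁.dth_S w₁ s
      · exact H₂.dth_S w₂ y
    have hsup : A₂ ⊔ A₁ = tsp p F := by
      refine Submodule.eq_of_le_of_finrank_eq (sup_le hle₂ hle₁) ?_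
      have h1 := Submodule.finrank_sup_add_finrank_inf_eq A₂ A₁
      rw [hinf, finrank_bot, add_zero, hA₁, hA₂] at h1
      rw [h1, hf]
    intro w hw
    rw [← hsup] at hw
    obtain ⟨a, ⟨w₂, hw₂, rfl⟩, b, ⟨w₁, hw₁, rfl⟩, rfl⟩ := Submodule.mem_sup.1 hw
    exact ⟨w₂, hw₂, w₁, hw₁, rfl⟩
  refine ⟨fun l => x₂ (Fin.cast hf₂.symm l), fun l => x₁ (Fin.cast hf₁.symm l), ?_, ?_, ?_⟩
  · refine linInd_of_ker _ (by rw [Fintype.card_sum, Fintype.card_fin, Fintype.card_fin, hb₁]) ?_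
    intro w hw
    refine hx₁ w (fun i => hw (Sum.inr i)) fun l => ?_
    have h1 := hw (Sum.inl (Fin.cast hf₁ l))
    rw [Sum.elim_inl, single_sum] at h1
    simpa using h1
  · refine linInd_of_ker _ (by rw [Fintype.card_sum, Fintype.card_fin, Fintype.card_fin, hb₂]) ?_
    intro w hw
    refine hx₂ w (fun i => hw (Sum.inr i)) fun l => ?_
    have h1 := hw (Sum.inl (Fin.cast hf₂ l))
    rw [Sum.elim_inl, single_sum] at h1
    simpa using h1
  · refine linInd_of_ker _ (by rw [Fintype.card_sum, Fintype.card_fin, Fintype.card_fin, hc]) ?_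
    intro w hw
    obtain ⟨w₂, hw₂, w₁, hw₁, rfl⟩ := hdec w (fun i => hw (Sum.inr i))
    have e₂ : w₂ = 0 := by
      refine hx₂ w₂ hw₂ fun l => ?_
      have h1 := hw (Sum.inl (Fin.castAdd b₁ (Fin.cast hf₂ l)))
      rw [Sum.elim_inl, single_sum, Fin.addCases_left, Pi.add_apply, H₂.dth_Y, H₁.dth_S,
        add_zero] at h1
      simpa using h1
    have e₁ : w₁ = 0 := by
      refine hx₁ w₁ hw₁ fun l => ?_
      have h1 := hw (Sum.inl (Fin.natAdd b₂ (Fin.cast hf₁ l)))
      rw [Sum.elim_inl, single_sum, Fin.addCases_right, Pi.add_apply, H₁.dth_Y, H₂.dth_S,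
        zero_add] at h1
      simpa using h1
    rw [e₁, e₂, map_zero, map_zero, add_zero]

/-- **[K'] for both sides, and the germ of `Z⁺` as a product in adapted coordinates.** -/
theorem exists_product_germ [CharZero k] {Z S Y α β : Type*} [Fintype Z] [DecidableEq Z]
    [Fintype S] [DecidableEq S]
    [Fintype Y] [DecidableEq Y] [Fintype α] [DecidableEq α] [Fintype β] [DecidableEq β]
    {c c₁ c₂ : ℕ} {p : Z → k} {F : Fin c → MvPolynomial Z k}
    (hF0 : ∀ i, eval p (F i) = 0)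
    (hind : LinearIndependent k (fun i => grad p (F i)))
    {iS : S → Z} {iY : Y → Z} {p₁ : α ⊕ Y → k} {F₁ : Fin c₁ → MvPolynomial (α ⊕ Y) k}
    {θ₁ : MvPolynomial Z k →ₐ[k] MvPolynomial (α ⊕ Y) k} (H₁ : LeafIn p F iS iY p₁ F₁ θ₁)
    {p₂ : β ⊕ S → k} {F₂ : Fin c₂ → MvPolynomial (β ⊕ S) k}
    {θ₂ : MvPolynomial Z k →ₐ[k] MvPolynomial (β ⊕ S) k} (H₂ : LeafIn p F iY iS p₂ F₂ θ₂)
    (htr : ∀ w ∈ tsp p F, (∀ s, w (iS s) = 0) → (∀ y, w (iY y) = 0) → w = 0)
    {b₁ b₂ : ℕ} (hb₁ : b₁ + c₁ = Fintype.card (α ⊕ Y)) (hb₂ : b₂ + c₂ = Fintype.card (β ⊕ S))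
    (hc : (b₂ + b₁) + c = Fintype.card Z)
    {L : Type*} [Field L] (ι : MvPowerSeries (Fin (b₂ + b₁)) k →+* L)
    (hι : Function.Injective ι)
    (hsplit : ∀ φ : MvPolynomial Z k →ₐ[k] MvPowerSeries (Fin (b₂ + b₁)) k,
      (∀ G, MvPowerSeries.constantCoeff (φ G) = eval p G) →
      (∀ n G, φ G ∈ (ordI n : Ideal (MvPowerSeries (Fin (b₂ + b₁)) k)) ↔ G ∈ J p F n) →
      ∀ a : Fin (b₂ + b₁) → Z → k,
      (∀ l, φ (∑ j, C (a l j) * (MvPolynomial.X j - C (p j))) = MvPowerSeries.X l) →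
      ∀ l, ∃ α : Fin (b₂ + b₁) → L,
        (∀ y, ∑ m, α m * ι (MvPowerSeries.pderiv k m (φ (MvPolynomial.X (iY y)))) = 0) ∧
        (∀ s, ∑ m, α m * ι (MvPowerSeries.pderiv k m (φ (MvPolynomial.X (iS s)))) =
          ι (MvPowerSeries.pderiv k l (φ (MvPolynomial.X (iS s)))))) :
    ∃ (φ : MvPolynomial Z k →ₐ[k] MvPowerSeries (Fin (b₂ + b₁)) k) (x₂ : Fin b₂ → S)
      (x₁ : Fin b₁ → Y),
      (∀ n G, φ G ∈ (ordI n : Ideal (MvPowerSeries (Fin (b₂ + b₁)) k)) ↔ G ∈ J p F n) ∧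
      (∀ G, MvPowerSeries.constantCoeff (φ G) = eval p G) ∧
      (∀ l, φ (MvPolynomial.X (iS (x₂ l)) - C (p (iS (x₂ l)))) =
        MvPowerSeries.X (Fin.castAdd b₁ l)) ∧
      (∀ l, φ (MvPolynomial.X (iY (x₁ l)) - C (p (iY (x₁ l)))) =
        MvPowerSeries.X (Fin.natAdd b₂ l)) ∧
      (∀ s, Dep (Set.range (Fin.castAdd b₁)) (φ (MvPolynomial.X (iS s)))) ∧
      (∀ y, Dep (Set.range (Fin.natAdd b₂)) (φ (MvPolynomial.X (iY y)))) ∧
      (∀ G : MvPolynomial Y k, rename iY G ∈ germ p F ↔ rename Sum.inr G ∈ germ p₁ F₁) ∧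
      (∀ G : MvPolynomial S k, rename iS G ∈ germ p F ↔ rename Sum.inr G ∈ germ p₂ F₂) := by
  classical
  obtain ⟨x₂, x₁, hl₁, hl₂, hl⟩ := exists_adapted hind H₁ H₂ htr hb₁ hb₂ hc
  set ξ : Fin (b₂ + b₁) → Z := Fin.addCases (fun l => iS (x₂ l)) (fun l => iY (x₁ l)) with hξ
  have hξl : ∀ l, ξ (Fin.castAdd b₁ l) = iS (x₂ l) := fun l => Fin.addCases_left l
  have hξr : ∀ l, ξ (Fin.natAdd b₂ l) = iY (x₁ l) := fun l => Fin.addCases_right l
  obtain ⟨φ, hA, -, hJ, hR⟩ := exists_germ_vars p F hF0 ξ hl (by rw [Fintype.card_fin]; exact hc)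
  obtain ⟨φ₁, hA₁, -, hJ₁, -⟩ := exists_germ_vars p₁ F₁ H₁.hF0 (fun l => Sum.inr (x₁ l)) hl₁
    (by rw [Fintype.card_fin]; exact hb₁)
  obtain ⟨φ₂, hA₂, -, hJ₂, -⟩ := exists_germ_vars p₂ F₂ H₂.hF0 (fun l => Sum.inr (x₂ l)) hl₂
    (by rw [Fintype.card_fin]; exact hb₂)
  have hX : ∀ l, φ (MvPolynomial.X (ξ l) - C (p (ξ l))) = MvPowerSeries.X l := by
    intro l
    have := hA (MvPolynomial.X l)
    rw [aeval_X] at this
    rw [this]
    exact MvPolynomial.coe_X l
  have hC : ∀ a : k, φ (C a) = MvPowerSeries.C a := by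
    intro a
    have := hA (MvPolynomial.C a)
    rw [MvPolynomial.coe_C] at this
    rw [← this]
    congr 1
    exact (MvPolynomial.algHom_C _ a).symm
  have hconst : ∀ G, MvPowerSeries.constantCoeff (φ G) = eval p G := by
    intro G
    have h1 : G - C (eval p G) ∈ J p F 1 := by
      rw [J_one p F hF0, mem_mx, map_sub, eval_C, sub_self]
    have h2 := (hJ 1 _).2 h1
    have h3 := mem_ordI'.1 h2 0 (by simp)
    rw [map_sub, hC, map_sub, MvPowerSeries.coeff_zero_eq_constantCoeff_apply,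
      MvPowerSeries.coeff_zero_eq_constantCoeff_apply, MvPowerSeries.constantCoeff_C,
      sub_eq_zero] at h3
    exact h3
  have hS : ∀ l, φ (MvPolynomial.X (ξ l)) = MvPowerSeries.C (p (ξ l)) + MvPowerSeries.X l := by
    intro l
    have := hX l
    rw [map_sub, hC, sub_eq_iff_eq_add] at this
    rw [this]
    exact add_comm _ _
  let κ : Fin (b₂ + b₁) → S ⊕ Y := Fin.addCases (fun l => Sum.inl (x₂ l)) (fun l => Sum.inr (x₁ l))
  have hκl : ∀ l, κ (Fin.castAdd b₁ l) = Sum.inl (x₂ l) := fun l => Fin.addCases_left l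
  have hκr : ∀ l, κ (Fin.natAdd b₂ l) = Sum.inr (x₁ l) := fun l => Fin.addCases_right l
  have hprod := prod_coord ι hι (fun s => φ (MvPolynomial.X (iS s)))
    (fun y => φ (MvPolynomial.X (iY y))) κ (by
      intro l
      refine ⟨p (ξ l), ?_⟩
      refine Fin.addCases (fun l => ?_) (fun l => ?_) l
      · rw [hκl, Sum.elim_inl, ← hξl, hS]
      · rw [hκr, Sum.elim_inr, ← hξr, hS])
    (hsplit φ hconst hJ (fun l => (Pi.single (ξ l) (1 : k) : Z → k)) (fun l => by
      have h1 := zc_single p ξ l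
      unfold zc at h1
      rw [h1]
      exact hX l))
  have hsub1 : {l | (κ l).isLeft = true} ⊆ Set.range (Fin.castAdd b₁) := by
    intro l
    refine Fin.addCases (fun l _ => ⟨l, rfl⟩) (fun l h => ?_) l
    rw [Set.mem_ofPred_eq, hκr] at h
    exact absurd h (by simp)
  have hsub2 : {l | (κ l).isRight = true} ⊆ Set.range (Fin.natAdd b₂) := by
    intro l
    refine Fin.addCases (fun l h => ?_) (fun l _ => ⟨l, rfl⟩) l
    rw [Set.mem_ofPred_eq, hκl] at h
    exact absurd h (by simp)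
  have hdS : ∀ s, Dep (Set.range (Fin.castAdd b₁)) (φ (MvPolynomial.X (iS s))) := fun s =>
    (hprod.1 s).mono hsub1
  have hdY : ∀ y, Dep (Set.range (Fin.natAdd b₂)) (φ (MvPolynomial.X (iY y))) := fun y =>
    (hprod.2 y).mono hsub2
  refine ⟨φ, x₂, x₁, hJ, hconst, ?_, ?_, hdS, hdY, ?_, ?_⟩
  · intro l; rw [← hξl]; exact hX _
  · intro l; rw [← hξr]; exact hX _
  · exact kprime p F φ hJ ξ hA hR iY Sum.inr (Fin.natAdd b₂) (Fin.natAdd_injective b₁ b₂) hdY x₁
      hξr p₁ F₁ φ₁ hJ₁ hA₁ θ₁ H₁.hθY H₁.hθp H₁.hθF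
  · exact kprime p F φ hJ ξ hA hR iS Sum.inr (Fin.castAdd b₁) (Fin.castAdd_injective b₂ b₁) hdS x₂
      hξl p₂ F₂ φ₂ hJ₂ hA₂ θ₂ H₂.hθY H₂.hθp H₂.hθF

end Vale.Agent.P054.T2.H192
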