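import Vale.Agent.P054.T2.H192.Tree

set_option autoImplicit false

/-!
# P054 / T2, leaf [TREE]: the inputs `hperp`, `hiso₁`, `hiso₂` of `tree` for two sets `S`, `R` of
points with all pairs adjacent (actual classes), and for a pair of evaluated germs.
-/

namespace Vale.Agent.P054.T2.H192

open H686 Module

variable {k : Type*} [Field k] {n : ℕ}

/-- direction space of a set of points, from the base point `s` -/
def dir (s : W k n) (S : Set (W k n)) : Submodule k (W k n) :=
  Submodule.span k ((fun x => x - s) '' S)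

theorem sub_mem_dir {s x : W k n} {S : Set (W k n)} (hx : x ∈ S) : x - s ∈ dir s S :=
  Submodule.subset_span ⟨x, hx, rfl⟩

theorem dir_le {s : W k n} {S : Set (W k n)} {V : Submodule k (W k n)}
    (h : ∀ x ∈ S, x - s ∈ V) : dir s S ≤ V := by
  refine Submodule.span_le.2 ?_
  rintro _ ⟨x, hx, rfl⟩
  exact h x hx

theorem sub_mem_dir' {s x y : W k n} {S : Set (W k n)} (hx : x ∈ S) (hy : y ∈ S) :
    x - y ∈ dir s S := by
  have h := (dir s S).sub_mem (sub_mem_dir (s := s) hx) (sub_mem_dir (s := s) hy)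
  have e : x - s - (y - s) = x - y := by abel
  rwa [e] at h

theorem Qf_neg (s : W k n) : Qf (-s) = Qf s := by
  have h := Qf_smul (-1 : k) s
  simpa using h

theorem Bf_neg_left (s r : W k n) : Bf (-s) r = -Bf s r := by
  have h := Bf_smul_left (-1 : k) s r
  simpa using h

theorem Bf_neg_right (s r : W k n) : Bf s (-r) = -Bf s r := by
  rw [Bf_comm, Bf_neg_left, Bf_comm]

theorem Bf_sub_right (s r r' : W k n) : Bf s (r - r') = Bf s r - Bf s r' := by
  rw [sub_eq_add_neg, Bf_add_right, Bf_neg_right, ← sub_eq_add_neg]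

theorem Bf_sub_left (s s' r : W k n) : Bf (s - s') r = Bf s r - Bf s' r := by
  rw [Bf_comm, Bf_sub_right, Bf_comm r s, Bf_comm r s']

/-- orthogonality passes to spans -/
theorem perp_span {A B : Set (W k n)} (h : ∀ a ∈ A, ∀ b ∈ B, Bf a b = 0) :
    ∀ a ∈ Submodule.span k A, ∀ b ∈ Submodule.span k B, Bf a b = 0 := by
  have h1 : ∀ a ∈ A, ∀ b ∈ Submodule.span k B, Bf a b = 0 := by
    intro a ha b hb
    have h2 : Submodule.span k B ≤ LinearMap.ker (Bl k n a) :=
      Submodule.span_le.2 fun b hb => by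
        change Bl k n a b = 0
        exact h a ha b hb
    exact h2 hb
  intro a ha b hb
  have h2 : Submodule.span k A ≤ LinearMap.ker (Bl k n b) :=
    Submodule.span_le.2 fun a ha => by
      change Bl k n b a = 0
      rw [Bl_apply, Bf_comm]
      exact h1 a ha b hb
  have h3 : Bl k n b a = 0 := h2 ha
  rw [Bl_apply, Bf_comm] at h3
  exact h3

theorem perp_span_right {w : W k n} {B : Set (W k n)} (h : ∀ b ∈ B, Bf w b = 0) :
    ∀ b ∈ Submodule.span k B, Bf w b = 0 := by
  intro b hb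
  exact perp_span (A := {w}) (B := B) (by rintro a rfl b hb; exact h b hb) w
    (Submodule.mem_span_singleton_self w) b hb

/-- `V₁ ⊥ V₂` for two sets of points with all pairs adjacent -/
theorem dir_perp {S R : Set (W k n)} {s r : W k n} (hs : s ∈ S) (hr : r ∈ R)
    (hadj : ∀ x ∈ S, ∀ y ∈ R, Qf (x - y) = 0) :
    ∀ a ∈ dir s S, ∀ b ∈ dir r R, Bf a b = 0 := by
  refine perp_span ?_
  rintro _ ⟨x, hx, rfl⟩ _ ⟨y, hy, rfl⟩
  have e1 : x - y = (s - r) + (x - s) + (-(y - r)) := by abel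
  have e2 : x - r = (s - r) + (x - s) := by abel
  have e3 : s - y = (s - r) + (-(y - r)) := by abel
  have h1 := hadj x hx y hy
  have h2 := hadj x hx r hr
  have h3 := hadj s hs y hy
  have h4 := hadj s hs r hr
  rw [e1, Qf_add, Qf_add, Bf_add_left] at h1
  rw [e2, Qf_add] at h2
  rw [e3, Qf_add] at h3
  rw [Bf_neg_right, Bf_neg_right] at h1
  rw [Bf_neg_right] at h3
  show Bf (x - s) (y - r) = 0
  linear_combination h2 + h3 - h4 - h1

/-- an isotropic `V₂` is orthogonal to `w = s - r` -/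
theorem dir_iso_right {R : Set (W k n)} {s r : W k n} (hr : r ∈ R)
    (hadj : ∀ y ∈ R, Qf (s - y) = 0) (hI : Iso (dir r R)) :
    ∀ b ∈ dir r R, Bf (s - r) b = 0 := by
  refine perp_span_right ?_
  rintro _ ⟨y, hy, rfl⟩
  have e3 : s - y = (s - r) + (-(y - r)) := by abel
  have h3 := hadj y hy
  have h4 := hadj r hr
  have h5 := hI (y - r) (sub_mem_dir hy)
  rw [e3, Qf_add, Bf_neg_right, Qf_neg, h4, h5] at h3
  show Bf (s - r) (y - r) = 0
  linear_combination -h3

/-- an isotropic `V₁` is orthogonal to `w = s - r` -/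
theorem dir_iso_left {S : Set (W k n)} {s r : W k n} (hs : s ∈ S)
    (hadj : ∀ x ∈ S, Qf (x - r) = 0) (hI : Iso (dir s S)) :
    ∀ a ∈ dir s S, Bf (s - r) a = 0 := by
  intro a ha
  have h := dir_iso_right (s := r) hs (fun x hx => by
    have e : r - x = -(x - r) := by abel
    rw [e, Qf_neg]; exact hadj x hx) hI a ha
  have e : s - r = -(r - s) := by abel
  rw [e, Bf_neg_left, h, neg_zero]

/-- `w ∈ V₂` and `V₁ ≤ V₂` follow from `S ⊆ r + V₂` -/
theorem dir_le_of_subset {S R : Set (W k n)} {s r : W k n} (hs : s ∈ S)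
    (h : ∀ x ∈ S, x - r ∈ dir r R) : dir s S ≤ dir r R := by
  refine dir_le fun x hx => ?_
  have e : x - s = (x - r) - (s - r) := by abel
  rw [e]
  exact Submodule.sub_mem _ (h x hx) (h s hs)

/-- **[TREE] for actual classes**: all of `S × R` adjacent; `s ∈ r + V(R)` forces
`S ⊆ r + V(R)` and `r ∈ s + V(S)` forces `R ⊆ s + V(S)`. -/
theorem tree_sets (h2 : (2 : k) ≠ 0) {S R : Set (W k n)} {s r : W k n} (hs : s ∈ S) (hr : r ∈ R)
    (hadj : ∀ x ∈ S, ∀ y ∈ R, Qf (x - y) = 0)
    (hS : s - r ∈ dir r R → ∀ x ∈ S, x - r ∈ dir r R)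
    (hR : s - r ∈ dir s S → ∀ y ∈ R, y - s ∈ dir s S) :
    (s - r ∉ dir r R ∧ finrank k (dir r R) ≤ n ∧
      (finrank k (dir r R) < n ∨ ¬ Iso (dir r R ⊔ Submodule.span k {s - r}))) ∨
    (s - r ∉ dir r R ∧ finrank k (dir r R) = n ∧ Iso (dir r R ⊔ Submodule.span k {s - r}) ∧
      finrank k ↥(dir r R ⊔ Submodule.span k {s - r}) = n + 1) ∨
    (s - r ∉ dir s S ∧ finrank k (dir s S) ≤ n ∧
      (finrank k (dir s S) < n ∨ ¬ Iso (dir s S ⊔ Submodule.span k {s - r}))) ∨
    (s - r ∉ dir s S ∧ finrank k (dir s S) = n ∧ Iso (dir s S ⊔ Submodule.span k {s - r}) ∧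
      finrank k ↥(dir s S ⊔ Submodule.span k {s - r}) = n + 1) ∨
    (s - r ∉ dir s S ∧ s - r ∉ dir r R ∧ finrank k (dir s S) = n + 1 ∧
      finrank k (dir r R) = n + 1 ∧ dir r R = orth (dir s S) ∧ dir s S = orth (dir r R) ∧
      ¬ Iso (dir s S) ∧ ¬ Iso (dir r R)) ∨
    (s - r ∈ dir s S ∧ dir s S = dir r R ∧ Iso (dir s S) ∧ finrank k (dir s S) ≤ n + 1) := by
  refine tree h2 (dir s S) (dir r R) (s - r) (dir_perp hs hr hadj)
    (dir_iso_left hs fun x hx => hadj x hx r hr) (dir_iso_right hr fun y hy => hadj s hs y hy)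
    (fun hw => ?_) (fun hw => dir_le_of_subset hs (hS hw))
  refine dir_le fun y hy => ?_
  have e : y - r = (y - s) + (s - r) := by abel
  rw [e]
  exact Submodule.add_mem _ (hR hw y hy) hw

end Vale.Agent.P054.T2.H192
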